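import Mathlib
import Vale.Agent.P237.Sharp.Defs
import Vale.Agent.P237.Const

/-!
# P237: Petty's inequality up to an absolute constant — module interface
-/

open MeasureTheory Set Real Metric
open scoped Pointwise RealInnerProductSpace

namespace Vale.Agent.P237.Univ

/-- `∫₀¹ (1 - t²)^(k/2)`. -/
noncomputable def ballInt (k : ℕ) : ℝ := ∫ t in (0:ℝ)..1, √(1 - t ^ 2) ^ k

/-- The integrand of the cone-measure mean of `G²`, in terms of a slice profile in `ℝ^d`. -/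
noncomputable def qd (d : ℕ) (G : ℝ → ℝ) (t : ℝ) : ℝ :=
  (d : ℝ) * G t ^ 2 + t * (2 * G t * deriv G t)

/-- Module OneD. Transport of the cone measure and Hölder, for an even profile vanishing at `±1`. -/
def OneDU : Prop :=
  ∀ m : ℕ, 4 ≤ m → ∀ f : ℝ → ℝ, ContinuousOn f (Icc (-1) 1) → ConcaveOn ℝ (Icc (-1) 1) f →
    (∀ t, f (-t) = f t) → (∀ t ∈ Ioo (-1:ℝ) 1, 0 < f t) → f 1 = 0 →
    ∀ η : ℝ, 0 < η →
    ∃ G : ℝ → ℝ, (∃ L, LipschitzWith L G) ∧ (∀ t, G (-t) = -G t) ∧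
      (∫ t in (0:ℝ)..1, f t ^ m * qd (m + 1) G t) ≤
        ((m:ℝ) + 1) / ((m:ℝ) - 2) * ∫ t in (0:ℝ)..1, f t ^ m ∧
      (1 - η) * ((m:ℝ) / ((m:ℝ) - 1) * ballInt (m - 1) ^ (m + 1)) ≤
        (ballInt m * (∫ t in (0:ℝ)..1, f t ^ (m - 1)) / ∫ t in (0:ℝ)..1, f t ^ m) ^ m *
          ∫ t in (0:ℝ)..1, f t ^ m * deriv G t

/-- Module Flux. The divergence inequality on a body containing the unit ball. -/
def FluxU : Prop :=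
  ∀ d : ℕ, ∀ (ι : Type) [Fintype ι], ∀ K : Set (E d), IsCompact K → Convex ℝ K →
    closedBall (0 : E d) 1 ⊆ K →
    ∀ (c : ι → ℝ) (u : ι → E d), (∀ i, 0 ≤ c i) → (∀ i, ‖u i‖ = 1) →
    (∀ x, ∑ i, c i * ⟪u i, x⟫ ^ 2 = ‖x‖ ^ 2) →
    ∀ G : ι → ℝ → ℝ, (∀ i, ∃ L, LipschitzWith L (G i)) → ∀ τ : ℝ, 0 < τ →
      ∑ i, c i * (∫ x in K, deriv (G i) ⟪u i, x⟫) ≤
        τ / 2 * (∑ i, c i * ∫ x in K, qd d (G i) ⟪u i, x⟫) + (d : ℝ) * volume.real K / (2 * τ)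

/-- Module John. John position with its decomposition of the identity. -/
def JohnU : Prop :=
  ∀ d : ℕ, 1 ≤ d → ∀ K : Set (E d), IsBody K → (∀ x ∈ K, -x ∈ K) →
    ∃ (T : E d ≃ₗ[ℝ] E d) (ι : Type) (_ : Fintype ι) (c : ι → ℝ) (u : ι → E d),
      closedBall (0 : E d) 1 ⊆ T '' K ∧ (∀ i, 0 ≤ c i) ∧ (∀ i, ‖u i‖ = 1) ∧
      (∀ i, supp (T '' K) (u i) = 1) ∧ ∀ x, ∑ i, c i * ⟪u i, x⟫ ^ 2 = ‖x‖ ^ 2

/-- Module Smooth (1). Shrink a body to one whose contact sections are points. -/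
def SmoothU : Prop :=
  ∀ d : ℕ, ∀ K : Set (E (d + 1 + 1)), IsBody K → (∀ x ∈ K, -x ∈ K) →
    closedBall (0 : E (d + 1 + 1)) 1 ⊆ K → ∀ δ : ℝ, 0 < δ →
    ∃ K' : Set (E (d + 1 + 1)), IsBody K' ∧ (∀ x ∈ K', -x ∈ K') ∧
      closedBall (0 : E (d + 1 + 1)) 1 ⊆ K' ∧ K' ⊆ K ∧
      (1 - δ) * volume.real K ≤ volume.real K' ∧
      ∀ v, ‖v‖ = 1 → supp K v = 1 → supp K' v = 1 ∧ ∀ x ∈ K', ⟪x, v⟫ = 1 → x = v

/-- Module Smooth (2). The normalised slice profile and the integrals it computes. -/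
def ProfileU : Prop :=
  ∀ d : ℕ, ∀ K : Set (E (d + 1 + 1)), IsBody K → (∀ x ∈ K, -x ∈ K) →
    ∀ v, ‖v‖ = 1 → supp K v = 1 → (∀ x ∈ K, ⟪x, v⟫ = 1 → x = v) →
    ∀ L : E (d + 1 + 1) ≃ₗᵢ[ℝ] E (d + 1 + 1), L v = e0 →
    ∃ f : ℝ → ℝ, ContinuousOn f (Icc (-1) 1) ∧ ConcaveOn ℝ (Icc (-1) 1) f ∧
      (∀ t, f (-t) = f t) ∧ (∀ t ∈ Ioo (-1:ℝ) 1, 0 < f t) ∧ f 1 = 0 ∧
      (∀ t, kap (d + 1) * f t ^ (d + 1) = volume.real (slice (L '' K) t)) ∧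
      ∀ φ : ℝ → ℝ, Measurable φ → (∃ C, ∀ t ∈ Icc (-1:ℝ) 1, |φ t| ≤ C) → (∀ t, φ (-t) = φ t) →
        ∫ x in K, φ ⟪v, x⟫ = 2 * kap (d + 1) * ∫ t in (0:ℝ)..1, f t ^ (d + 1) * φ t

/-- The absolute-constant form of Petty's inequality. -/
def PettyConst : Prop :=
  ∀ n : ℕ, 3 ≤ n → ∀ K : Set (E n), IsBody K →
    √(3 * π) / 4 * petty n * volume.real K ^ (n - 1) ≤ volume.real (projBody K)

end Vale.Agent.P237.Univ
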