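import Mathlib
import Vale.Agent.P237.Univ.Spec
import Vale.Agent.P237.EntropyStep
import Vale.Agent.P237.Sharp.Three

/-!
# P237, absolute constant: the slice profile of a body with a point contact
-/

open MeasureTheory Set Real Metric Filter Topology
open scoped Pointwise RealInnerProductSpace

namespace Vale.Agent.P237.Univ

variable {n : ℕ}

/-- `∫_C φ(x₀) = ∫ φ A` for a bounded measurable `φ`. -/
lemma integral_hd_slice {C : Set (E (n + 1))} (hC : IsCompact C) {φ : ℝ → ℝ} (hφ : Measurable φ)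
    {M : ℝ} (hM : ∀ x ∈ C, |φ (hd x)| ≤ M) :
    ∫ x in C, φ (hd x) = ∫ t, φ t * volume.real (slice C t) := by
  set T : Set (ℝ × E n) := {p | cons p.1 p.2 ∈ C} with hT
  have hTm : MeasurableSet T := hC.measurableSet.preimage continuous_cons.measurable
  have hpre : (fun x : E (n + 1) => (hd x, tl x)) ⁻¹' T = C := by
    ext x; simp [hT]
  have hTc : IsCompact T := by
    have : T = (fun x : E (n + 1) => (hd x, tl x)) '' C := by
      ext p
      exact ⟨fun hp => ⟨_, hp, by simp⟩, by rintro ⟨x, hx, rfl⟩; simpa [hT] using hx⟩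
    rw [this]
    exact hC.image (hd.continuous.prodMk tl.continuous)
  have hint : Integrable (T.indicator fun p => φ p.1) (volume.prod volume) := by
    refine IntegrableOn.integrable_indicator ?_ hTm
    refine IntegrableOn.of_bound hTc.measure_lt_top (hφ.comp measurable_fst).aestronglyMeasurable M ?_
    refine (ae_restrict_iff' hTm).2 (.of_forall fun p hp => ?_)
    have := hM _ hp
    rwa [hd_cons, ← Real.norm_eq_abs] at this
  conv_lhs => rw [← hpre]
  have hemb : MeasurableEmbedding (fun x : E (n + 1) => (hd x, tl x)) :=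
    (LinearMap.isClosedEmbedding_of_injective
      (f := LinearMap.prod (hd (n := n)).toLinearMap (tl (n := n)).toLinearMap)
      (LinearMap.ker_eq_bot.2 (fun x y hxy => by
        have h' : (hd x, tl x) = (hd y, tl y) := hxy
        rw [← cons_hd_tl x, ← cons_hd_tl y, (Prod.mk.inj h').1, (Prod.mk.inj h').2]))).measurableEmbedding
  rw [measurePreserving_split.setIntegral_preimage_emb hemb (fun p : ℝ × E n => φ p.1) T,
    ← integral_indicator hTm, integral_prod _ hint]
  congr 1
  funext t
  rw [show (fun y => T.indicator (fun p => φ p.1) (t, y)) = (slice C t).indicator (fun _ => φ t) from by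
    funext y; exact (Set.indicator_comp_right (Prod.mk t) (g := fun p : ℝ × E n => φ p.1) (x := y)).symm,
    integral_indicator (slice_isCompact hC t).measurableSet, setIntegral_const, smul_eq_mul, mul_comm]

lemma volume_real_closedBall (d : ℕ) {r : ℝ} (hr : 0 ≤ r) :
    volume.real (closedBall (0 : E d) r) = r ^ d * kap d := by
  rw [kap, measureReal_def, Measure.addHaar_closedBall' volume _ hr, ENNReal.toReal_mul,
    ENNReal.toReal_ofReal (by positivity), finrank_euclideanSpace_fin]
  rfl

theorem profileU : ProfileU := by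
  intro d K hK hsym v hv hs hpt L hL
  obtain ⟨hCc, hCv, hCs, h00, hbd, hne⟩ := supp_slice hK hsym L hL
  obtain ⟨hev, -, hpos⟩ := profile_full hK hsym hv L hL
  rw [hs] at hbd hne hpos
  set C := L '' K with hC
  set k : ℝ := kap (d + 1) with hk
  have hk0 : 0 < k := kap_pos _
  set A : ℝ → ℝ := fun t => volume.real (slice C t) with hA
  set f : ℝ → ℝ := fun t => (A t / k) ^ (((d + 1 : ℕ):ℝ)⁻¹) with hf
  have hA0 : ∀ t, 0 ≤ A t := fun t => measureReal_nonneg
  have hfp : ∀ t, k * f t ^ (d + 1) = A t := fun t => by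
    simp only [hf]
    rw [rpow_inv_natCast_pow (div_nonneg (hA0 t) hk0.le) (by omega), mul_div_cancel₀ _ hk0.ne']
  have hf0 : ∀ t, 0 ≤ f t := fun t => rpow_nonneg (div_nonneg (hA0 t) hk0.le) _
  have hfev : ∀ t, f (-t) = f t := fun t => by simp only [hf, hA, hev]
  have hsne : ∀ t ∈ Icc (-1:ℝ) 1, (slice C t).Nonempty := by
    intro t ht
    rcases le_total 0 t with h1 | h1
    · exact slice_nonempty_mono hCv hCs hne ⟨h1, ht.2⟩
    · have := slice_nonempty_mono hCv hCs hne (t := -t) ⟨neg_nonneg.2 h1, by linarith [ht.1]⟩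
      rw [slice_neg hCs] at this
      exact Set.nonempty_neg.1 this
  have hconc : ConcaveOn ℝ (Icc (-1) 1) f := by
    have h1 : ConcaveOn ℝ (Icc (-1:ℝ) 1) (fun t => A t ^ (((d + 1 : ℕ):ℝ)⁻¹)) := by
      refine ⟨convex_Icc _ _, fun x hx y hy p q hp hq hpq => ?_⟩
      refine bm (n := d + 1) (by omega) (slice_convex hCv x) (slice_isCompact hCc x) (hsne x hx)
        (slice_convex hCv y) (slice_isCompact hCc y) (hsne y hy) (slice_convex hCv _)
        (slice_isCompact hCc _) hp hq hpq ?_
      intro z hz z' hz'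
      have := hCv hz hz' hp hq hpq
      rw [smul_cons, smul_cons, cons_add] at this
      exact this
    have e : f = fun t => (k ^ (((d + 1 : ℕ):ℝ)⁻¹))⁻¹ • A t ^ (((d + 1 : ℕ):ℝ)⁻¹) := by
      funext t
      simp only [hf, smul_eq_mul]
      rw [div_rpow (hA0 t) hk0.le, div_eq_inv_mul]
    rw [e]
    exact h1.smul (inv_nonneg.2 (rpow_nonneg hk0.le _))
  have hfpos : ∀ t ∈ Ioo (-1:ℝ) 1, 0 < f t := fun t ht =>
    rpow_pos_of_pos (div_pos (hpos t ht) hk0) _
  have hcont : ContinuousOn f (Ioo (-1) 1) :=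
    (hconc.subset Ioo_subset_Icc_self (convex_Ioo _ _)).continuousOn isOpen_Ioo
  -- near the contact the slices shrink
  have hsmall : ∀ r : ℝ, 0 < r → ∃ t₀ < (1:ℝ), ∀ t, t₀ < t → f t ≤ r := by
    intro r hr
    set S : Set (E (d + 1 + 1)) := C ∩ {x | r ≤ ‖tl x‖} with hS
    have hSc : IsCompact S := hCc.inter_right (isClosed_le continuous_const tl.continuous.norm)
    obtain ⟨t₀, ht₀, hb⟩ : ∃ t₀ < (1:ℝ), ∀ x ∈ S, hd x ≤ t₀ := by
      rcases S.eq_empty_or_nonempty with he | hne'
      · exact ⟨0, one_pos, fun x hx => absurd hx (he ▸ notMem_empty x)⟩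
      obtain ⟨x₀, hx₀, hmax⟩ := hSc.exists_isMaxOn hne' hd.continuous.continuousOn
      refine ⟨hd x₀, lt_of_le_of_ne (hbd _ hx₀.1) fun h1 => ?_, fun x hx => hmax hx⟩
      obtain ⟨y, hy, rfl⟩ := hx₀.1
      rw [exists_isometry_slice hL] at h1
      have := hx₀.2
      rw [hpt y hy h1, hL, mem_ofPred_eq, e0_eq, tl_cons, norm_zero] at this
      linarith
    refine ⟨t₀, ht₀, fun t ht => ?_⟩
    have hsub : slice C t ⊆ closedBall (0 : E (d + 1)) r := by
      intro y hy
      rw [mem_closedBall_zero_iff]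
      by_contra hlt
      have := hb (cons t y) ⟨hy, by rw [mem_ofPred_eq, tl_cons]; linarith [not_le.1 hlt]⟩
      rw [hd_cons] at this
      linarith
    refine (pow_le_pow_iff_left₀ (hf0 t) hr.le (n := d + 1) (by omega)).1 ?_
    refine le_of_mul_le_mul_left ?_ hk0
    rw [hfp, mul_comm, hk, ← volume_real_closedBall _ hr.le]
    exact measureReal_mono hsub (isCompact_closedBall _ _).measure_lt_top.ne
  have hf1 : f 1 = 0 := by
    refine le_antisymm (le_of_forall_pos_le_add fun r hr => ?_) (hf0 1)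
    obtain ⟨t₀, ht₀, h⟩ := hsmall r hr
    linarith [h 1 ht₀]
  have hc1 : Tendsto f (𝓝 1) (𝓝 0) := by
    rw [Metric.tendsto_nhds]
    intro ε hε
    obtain ⟨t₀, ht₀, h⟩ := hsmall (ε / 2) (by positivity)
    filter_upwards [lt_mem_nhds ht₀] with t ht
    rw [Real.dist_eq, sub_zero, abs_of_nonneg (hf0 t)]
    linarith [h t ht]
  have hcc : ContinuousOn f (Icc (-1) 1) := by
    intro t ht
    rcases ht.1.eq_or_lt with h1 | h1
    · rw [← h1]
      have h2 : Tendsto f (𝓝 (-1)) (𝓝 0) := by
        have hneg : Tendsto (fun s : ℝ => -s) (𝓝 (-1)) (𝓝 1) := by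
          simpa using (continuous_neg.tendsto (-1:ℝ))
        exact (hc1.comp hneg).congr fun s => hfev s
      have e : f (-1) = 0 := by rw [hfev, hf1]
      exact (e.symm ▸ h2 : Tendsto f (𝓝 (-1)) (𝓝 (f (-1)))).mono_left nhdsWithin_le_nhds
    · rcases ht.2.eq_or_lt with h2 | h2
      · rw [h2]
        exact (hf1.symm ▸ hc1 : Tendsto f (𝓝 1) (𝓝 (f 1))).mono_left nhdsWithin_le_nhds
      · exact (hcont.continuousAt (isOpen_Ioo.mem_nhds ⟨h1, h2⟩)).continuousWithinAt
  refine ⟨f, hcc, hconc, hfev, hfpos, hf1, hfp, ?_⟩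
  rintro φ hφ ⟨M, hM⟩ hφe
  have hmem : ∀ x ∈ C, hd x ∈ Icc (-1:ℝ) 1 := fun x hx => by
    refine ⟨?_, hbd x hx⟩
    have := hbd _ (hCs x hx)
    rw [map_neg] at this
    linarith
  have h1 : ∫ x in K, φ ⟪v, x⟫ = ∫ y in C, φ (hd y) := by
    rw [hC, (L.measurePreserving).setIntegral_image_emb
      L.toHomeomorph.toMeasurableEquiv.measurableEmbedding]
    simp only [exists_isometry_slice hL, real_inner_comm v]
  rw [h1, integral_hd_slice hCc hφ fun x hx => hM _ (hmem x hx)]
  set F : ℝ → ℝ := fun t => φ t * A t with hF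
  have hzero : ∀ t, t ∉ Icc (-1:ℝ) 1 → F t = 0 := by
    intro t ht
    have : slice C t = ∅ := eq_empty_iff_forall_notMem.2 fun y hy => ht (by simpa using hmem _ hy)
    simp [hF, hA, this]
  have hFe : ∀ t, F (-t) = F t := fun t => by simp only [hF, hA, hφe, hev]
  have hFi : IntegrableOn F (Icc (-1) 1) := by
    have hAc : ContinuousOn A (Icc (-1) 1) :=
      ((continuousOn_const.mul (hcc.pow (d + 1))).congr fun t _ => (hfp t).symm)
    refine IntegrableOn.mul_continuousOn ?_ hAc isCompact_Icc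
    refine IntegrableOn.of_bound measure_Icc_lt_top hφ.aestronglyMeasurable M ?_
    exact (ae_restrict_iff' measurableSet_Icc).2 (.of_forall fun t ht => by
      rw [Real.norm_eq_abs]; exact hM t ht)
  have i0 : IntervalIntegrable F volume 0 1 :=
    (intervalIntegrable_iff_integrableOn_Icc_of_le zero_le_one).2
      (hFi.mono_set (Icc_subset_Icc (by norm_num) le_rfl))
  have i0' : IntervalIntegrable F volume (-1) 0 :=
    (intervalIntegrable_iff_integrableOn_Icc_of_le (by norm_num)).2
      (hFi.mono_set (Icc_subset_Icc le_rfl zero_le_one))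
  show ∫ t, F t = _
  rw [← setIntegral_eq_integral_of_forall_compl_eq_zero hzero,
    integral_Icc_eq_integral_Ioc, ← intervalIntegral.integral_of_le (by norm_num),
    ← intervalIntegral.integral_add_adjacent_intervals i0' i0]
  have h2 := intervalIntegral.integral_comp_neg (f := F) (a := 0) (b := 1)
  simp only [hFe, neg_zero] at h2
  rw [← h2, show (fun t => f t ^ (d + 1) * φ t) = fun t => k⁻¹ * F t from funext fun t => by
    simp only [hF]; rw [← hfp t]; field_simp, intervalIntegral.integral_const_mul]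
  field_simp
  ring

end Vale.Agent.P237.Univ
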