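import Mathlib
import Vale.Agent.P237.Univ.Spec

/-!
# P237, module OneD: transport of the cone measure and Hölder

For an even concave profile `f` on `[-1,1]` with `f 1 = 0` we transport the cone measure
`dΦ = f^(m-1) (f - t f')` to `√(1-u²)^(m-2)` and set `g = u/√(1-u²)`, truncated at `T < 1`.
-/

open MeasureTheory Set Real Filter Metric
open scoped Topology NNReal

namespace Vale.Agent.P237.Univ.OneD

/-! ### Lipschitz functions on `[0,T]` -/

/-- Lipschitz on `[0,T]`. -/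
def Lp (T : ℝ) (h : ℝ → ℝ) : Prop := ∃ L, LipschitzOnWith L h (Icc 0 T)

lemma Lp.const {T : ℝ} (c : ℝ) : Lp T fun _ => c :=
  ⟨0, (LipschitzWith.const c).lipschitzOnWith⟩

lemma Lp.ident {T : ℝ} : Lp T fun t => t :=
  ⟨1, LipschitzWith.id.lipschitzOnWith⟩

lemma Lp.cont {T : ℝ} {h : ℝ → ℝ} (hh : Lp T h) : ContinuousOn h (Icc 0 T) :=
  hh.choose_spec.continuousOn

lemma Lp.add {T : ℝ} {a b : ℝ → ℝ} (ha : Lp T a) (hb : Lp T b) : Lp T fun t => a t + b t :=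
  let ⟨La, hLa⟩ := ha
  let ⟨Lb, hLb⟩ := hb
  ⟨La + Lb, hLa.add hLb⟩

lemma Lp.mul {T : ℝ} {a b : ℝ → ℝ} (ha : Lp T a) (hb : Lp T b) : Lp T fun t => a t * b t := by
  obtain ⟨A, hA⟩ := isCompact_Icc.exists_bound_of_continuousOn ha.cont
  obtain ⟨B, hB⟩ := isCompact_Icc.exists_bound_of_continuousOn hb.cont
  obtain ⟨La, hLa⟩ := ha
  obtain ⟨Lb, hLb⟩ := hb
  refine ⟨(|A| * Lb + |B| * La).toNNReal, LipschitzOnWith.of_dist_le_mul fun x hx y hy => ?_⟩
  have h1 : |a x - a y| ≤ La * |x - y| := by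
    simpa [Real.dist_eq] using hLa.dist_le_mul x hx y hy
  have h2 : |b x - b y| ≤ Lb * |x - y| := by
    simpa [Real.dist_eq] using hLb.dist_le_mul x hx y hy
  have h3 : |a x| ≤ |A| := le_trans (by simpa using hA x hx) (le_abs_self A)
  have h4 : |b y| ≤ |B| := le_trans (by simpa using hB y hy) (le_abs_self B)
  rw [Real.dist_eq, Real.dist_eq, Real.coe_toNNReal _ (by positivity)]
  calc |a x * b x - a y * b y| = |a x * (b x - b y) + b y * (a x - a y)| := by ring_nf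
    _ ≤ |a x * (b x - b y)| + |b y * (a x - a y)| := abs_add_le _ _
    _ = |a x| * |b x - b y| + |b y| * |a x - a y| := by rw [abs_mul, abs_mul]
    _ ≤ |A| * (Lb * |x - y|) + |B| * (La * |x - y|) := by gcongr
    _ = (|A| * Lb + |B| * La) * |x - y| := by ring

lemma Lp.const_mul {T : ℝ} {a : ℝ → ℝ} (c : ℝ) (ha : Lp T a) : Lp T fun t => c * a t :=
  (Lp.const c).mul ha

lemma Lp.sub {T : ℝ} {a b : ℝ → ℝ} (ha : Lp T a) (hb : Lp T b) : Lp T fun t => a t - b t := by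
  simpa [sub_eq_add_neg] using ha.add (hb.const_mul (-1))

lemma Lp.pow {T : ℝ} {a : ℝ → ℝ} (ha : Lp T a) : ∀ i : ℕ, Lp T fun t => a t ^ i
  | 0 => by simpa using Lp.const 1
  | i + 1 => by simpa [pow_succ] using (Lp.pow ha i).mul ha

lemma Lp.comp {T lo hi : ℝ} {h φ φ' : ℝ → ℝ} (hh : Lp T h)
    (hd : ∀ x ∈ Icc lo hi, HasDerivAt φ (φ' x) x) (hc : ContinuousOn φ' (Icc lo hi))
    (hm : MapsTo h (Icc 0 T) (Icc lo hi)) : Lp T fun t => φ (h t) := by
  obtain ⟨C, hC⟩ := isCompact_Icc.exists_bound_of_continuousOn hc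
  obtain ⟨L, hL⟩ := hh
  have hφ : LipschitzOnWith C.toNNReal φ (Icc lo hi) :=
    (convex_Icc lo hi).lipschitzOnWith_of_nnnorm_hasDerivWithin_le
      (fun x hx => (hd x hx).hasDerivWithinAt) fun x hx => by
        rw [← NNReal.coe_le_coe, coe_nnnorm]
        exact le_trans (hC x hx) (Real.le_coe_toNNReal C)
  exact ⟨C.toNNReal * L, hφ.comp hL hm⟩

lemma Lp.of_deriv {T : ℝ} {φ φ' : ℝ → ℝ} (hd : ∀ x, HasDerivAt φ (φ' x) x)
    (hc : Continuous φ') : Lp T φ :=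
  Lp.comp Lp.ident (fun x _ => hd x) hc.continuousOn (fun _ hx => hx)

lemma Lp.ac {T : ℝ} {h : ℝ → ℝ} (hh : Lp T h) (hT : 0 ≤ T) :
    AbsolutelyContinuousOnInterval h 0 T := by
  obtain ⟨L, hL⟩ := hh
  exact LipschitzOnWith.absolutelyContinuousOnInterval (K := L) (by rwa [uIcc_of_le hT])

lemma Lp.ftc {T : ℝ} {h : ℝ → ℝ} (hh : Lp T h) (hT : 0 ≤ T) :
    ∫ t in (0:ℝ)..T, deriv h t = h T - h 0 :=
  (hh.ac hT).integral_deriv_eq_sub

lemma Lp.intDeriv {T : ℝ} {h : ℝ → ℝ} (hh : Lp T h) (hT : 0 ≤ T) :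
    IntervalIntegrable (deriv h) volume 0 T :=
  (hh.ac hT).intervalIntegrable_deriv

/-! ### The reference profile -/

/-- `√|1 - v²| ^ i`. -/
noncomputable def w (i : ℕ) (v : ℝ) : ℝ := √|1 - v ^ 2| ^ i

lemma w_cont (i : ℕ) : Continuous (w i) := by unfold w; fun_prop

lemma w_nonneg (i : ℕ) (v : ℝ) : 0 ≤ w i v := by unfold w; positivity

lemma w_pos (i : ℕ) {v : ℝ} (hv : v ^ 2 ≠ 1) : 0 < w i v := by
  have h : 0 < |1 - v ^ 2| := abs_pos.2 (sub_ne_zero.2 (Ne.symm hv))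
  unfold w; positivity

lemma w_eq (i : ℕ) {v : ℝ} (hv : v ^ 2 ≤ 1) : w i v = √(1 - v ^ 2) ^ i := by
  unfold w; rw [abs_of_nonneg (by linarith)]

/-- Primitive of `w i`. -/
noncomputable def B (i : ℕ) (u : ℝ) : ℝ := ∫ v in (0:ℝ)..u, w i v

lemma B_hasDerivAt (i : ℕ) (u : ℝ) : HasDerivAt (B i) (w i u) u :=
  intervalIntegral.integral_hasDerivAt_right ((w_cont i).intervalIntegrable _ _)
    (w_cont i).stronglyMeasurable.stronglyMeasurableAtFilter (w_cont i).continuousAt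

lemma B_cont (i : ℕ) : Continuous (B i) :=
  continuous_iff_continuousAt.2 fun u => (B_hasDerivAt i u).continuousAt

@[simp] lemma B_zero (i : ℕ) : B i 0 = 0 := by simp [B]

lemma B_one (i : ℕ) : B i 1 = ballInt i := by
  unfold B ballInt
  refine intervalIntegral.integral_congr fun v hv => w_eq i ?_
  rw [uIcc_of_le zero_le_one] at hv
  nlinarith [hv.1, hv.2]

lemma B_sub (i : ℕ) (a b : ℝ) : B i b - B i a = ∫ v in a..b, w i v :=
  intervalIntegral.integral_interval_sub_left ((w_cont i).intervalIntegrable _ _)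
    ((w_cont i).intervalIntegrable _ _)

lemma B_strictMono (i : ℕ) : StrictMono (B i) := by
  intro a b hab
  have hc : ∃ c ∈ Icc a b, 0 < w i c := by
    by_contra hne
    push Not at hne
    have hsub : Icc a b ⊆ ({1, -1} : Set ℝ) := fun c hc => by
      by_contra hc'
      simp only [mem_insert_iff, mem_singleton_iff, not_or] at hc'
      exact absurd (hne c hc) (not_le.2 (w_pos i fun h => by
        rcases sq_eq_one_iff.1 h with h | h
        · exact hc'.1 h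
        · exact hc'.2 h))
    exact (Icc_infinite hab) ((Set.toFinite _).subset hsub)
  have := intervalIntegral.integral_pos hab (w_cont i).continuousOn
    (fun x _ => w_nonneg i x) hc
  linarith [B_sub i a b]

lemma B_neg (i : ℕ) (u : ℝ) : B i (-u) = -B i u := by
  have h := intervalIntegral.integral_comp_neg (f := w i) (a := 0) (b := u)
  have hw : (fun x => w i (-x)) = w i := by funext x; simp [w]
  rw [hw, neg_zero] at h
  unfold B
  rw [h, ← intervalIntegral.integral_symm]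

lemma B_ge (i : ℕ) {u : ℝ} (hu : 2 ≤ u) : u - 2 ≤ B i u := by
  have h1 : (∫ _v in (2:ℝ)..u, (1:ℝ)) ≤ ∫ v in (2:ℝ)..u, w i v :=
    intervalIntegral.integral_mono_on hu intervalIntegrable_const
      ((w_cont i).intervalIntegrable _ _) fun v hv => by
        unfold w
        exact one_le_pow₀ (Real.one_le_sqrt.2 (by
          rw [abs_of_nonpos (by nlinarith [hv.1])]; nlinarith [hv.1]))
  have h2 : B i 0 ≤ B i 2 := (B_strictMono i).monotone zero_le_two
  rw [← B_sub] at h1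
  simp at h1 h2
  linarith

lemma B_surj (i : ℕ) : Function.Surjective (B i) := by
  have ht : Tendsto (B i) atTop atTop :=
    tendsto_atTop_mono' _ ((eventually_ge_atTop 2).mono fun u hu => B_ge i hu)
      (tendsto_atTop_add_const_right atTop (-2 : ℝ) tendsto_id)
  have hb : Tendsto (B i) atBot atBot := by
    have h : Tendsto (fun u => -B i (-u)) atBot atBot :=
      tendsto_neg_atTop_atBot.comp (ht.comp tendsto_neg_atBot_atTop)
    simpa [B_neg] using h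
  exact (B_cont i).surjective ht hb

/-- `B i` as an order isomorphism. -/
noncomputable def Biso (i : ℕ) : ℝ ≃o ℝ :=
  StrictMono.orderIsoOfSurjective (B i) (B_strictMono i) (B_surj i)

/-- The inverse of `B i`. -/
noncomputable def Binv (i : ℕ) : ℝ → ℝ := (Biso i).symm

lemma B_Binv (i : ℕ) (y : ℝ) : B i (Binv i y) = y :=
  StrictMono.orderIsoOfSurjective_self_symm_apply (B i) (B_strictMono i) (B_surj i) y

lemma Binv_B (i : ℕ) (y : ℝ) : Binv i (B i y) = y :=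
  StrictMono.orderIsoOfSurjective_symm_apply_self (B i) (B_strictMono i) (B_surj i) y

lemma Binv_cont (i : ℕ) : Continuous (Binv i) := (Biso i).symm.continuous

lemma Binv_mono (i : ℕ) : StrictMono (Binv i) := (Biso i).symm.strictMono

lemma Binv_hasDerivAt (i : ℕ) {y : ℝ} (hy : Binv i y ^ 2 ≠ 1) :
    HasDerivAt (Binv i) (w i (Binv i y))⁻¹ y :=
  HasDerivAt.of_local_left_inverse (Binv_cont i).continuousAt (B_hasDerivAt i _)
    (w_pos i hy).ne' (Eventually.of_forall (B_Binv i))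

/-- `u / √(1-u²)`. -/
noncomputable def R (u : ℝ) : ℝ := u / √(1 - u ^ 2)

lemma R_hasDerivAt {u : ℝ} (hu : u ^ 2 < 1) : HasDerivAt R (√(1 - u ^ 2) ^ 3)⁻¹ u := by
  have h0 : 0 < 1 - u ^ 2 := by linarith
  have hs := Real.sqrt_pos.2 h0
  have h1 : HasDerivAt (fun x : ℝ => 1 - x ^ 2) (-(2 * u)) u := by
    simpa using (hasDerivAt_pow 2 u).const_sub 1
  have h2 := (hasDerivAt_id u).div (h1.sqrt h0.ne') hs.ne'
  refine h2.congr_deriv ?_
  have hsq := Real.sq_sqrt h0.le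
  simp only [id]
  field_simp
  linarith

/-- Primitive of `v² w i v`. -/
noncomputable def K (i : ℕ) (u : ℝ) : ℝ := ∫ v in (0:ℝ)..u, v ^ 2 * w i v

lemma K_cont_int (i : ℕ) : Continuous fun v : ℝ => v ^ 2 * w i v :=
  (continuous_pow 2).mul (w_cont i)

lemma K_hasDerivAt (i : ℕ) (u : ℝ) : HasDerivAt (K i) (u ^ 2 * w i u) u :=
  intervalIntegral.integral_hasDerivAt_right ((K_cont_int i).intervalIntegrable _ _)
    (K_cont_int i).stronglyMeasurable.stronglyMeasurableAtFilter (K_cont_int i).continuousAt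

lemma ballInt_cont (i : ℕ) : Continuous fun v : ℝ => √(1 - v ^ 2) ^ i := by fun_prop

lemma ballInt_pos (i : ℕ) : 0 < ballInt i := by
  rw [← B_one, ← B_zero i]; exact B_strictMono i one_pos

lemma sqrt_pow_add_two (i : ℕ) {v : ℝ} (hv : v ^ 2 ≤ 1) :
    √(1 - v ^ 2) ^ (i + 2) = √(1 - v ^ 2) ^ i * (1 - v ^ 2) := by
  rw [pow_add, Real.sq_sqrt (by linarith)]

lemma ballInt_rec (i : ℕ) : ((i:ℝ) + 3) * ballInt (i + 2) = ((i:ℝ) + 2) * ballInt i := by
  have hd : ∀ t ∈ Ioo (0:ℝ) 1, HasDerivAt (fun x : ℝ => x * √(1 - x ^ 2) ^ (i + 2))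
      (((i:ℝ) + 3) * √(1 - t ^ 2) ^ (i + 2) - ((i:ℝ) + 2) * √(1 - t ^ 2) ^ i) t := fun t ht => by
    have ht2 : t ^ 2 < 1 := by nlinarith [ht.1, ht.2]
    have h0 : 0 < 1 - t ^ 2 := by linarith
    have h1 : HasDerivAt (fun x : ℝ => 1 - x ^ 2) (-(2 * t)) t := by
      simpa using (hasDerivAt_pow 2 t).const_sub 1
    have h2 := (hasDerivAt_id t).mul ((h1.sqrt h0.ne').pow (i + 2))
    refine h2.congr_deriv ?_
    have hs := Real.sqrt_pos.2 h0
    have hsq := Real.sq_sqrt h0.le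
    simp only [id, Pi.pow_apply, Nat.cast_add, Nat.cast_ofNat]
    rw [sqrt_pow_add_two i ht2.le, show i + 2 - 1 = i + 1 by omega, pow_succ]
    field_simp
    ring
  have h := intervalIntegral.integral_eq_sub_of_hasDerivAt_of_le zero_le_one
    (by fun_prop) hd ((((ballInt_cont (i + 2)).const_mul _).sub
      ((ballInt_cont i).const_mul _)).intervalIntegrable _ _)
  rw [intervalIntegral.integral_sub (((ballInt_cont (i + 2)).const_mul _).intervalIntegrable _ _)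
    (((ballInt_cont i).const_mul _).intervalIntegrable _ _),
    intervalIntegral.integral_const_mul, intervalIntegral.integral_const_mul] at h
  simp at h
  unfold ballInt
  linarith

lemma K_one (i : ℕ) : K i 1 = ballInt (i + 2) / ((i:ℝ) + 2) := by
  have h : K i 1 = ballInt i - ballInt (i + 2) := by
    unfold K ballInt
    rw [← intervalIntegral.integral_sub ((ballInt_cont i).intervalIntegrable _ _)
      ((ballInt_cont (i + 2)).intervalIntegrable _ _)]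
    refine intervalIntegral.integral_congr fun v hv => ?_
    rw [uIcc_of_le zero_le_one] at hv
    have hv2 : v ^ 2 ≤ 1 := by nlinarith [hv.1, hv.2]
    simp only [w_eq i hv2, sqrt_pow_add_two i hv2]
    ring
  rw [h, eq_div_iff (by positivity)]
  linarith [ballInt_rec i]

/-- The tail beyond the truncation. -/
lemma tail_le (i : ℕ) {U : ℝ} (h0 : 0 ≤ U) (h1 : U < 1) :
    R U ^ 2 * (B (i + 2) 1 - B (i + 2) U) ≤ K i 1 - K i U := by
  have hK : K i 1 - K i U = ∫ v in U..1, v ^ 2 * w i v :=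
    intervalIntegral.integral_interval_sub_left ((K_cont_int i).intervalIntegrable _ _)
      ((K_cont_int i).intervalIntegrable _ _)
  rw [hK, B_sub, ← intervalIntegral.integral_const_mul]
  refine intervalIntegral.integral_mono_on h1.le (((w_cont _).const_mul _).intervalIntegrable _ _)
    ((K_cont_int i).intervalIntegrable _ _) fun v hv => ?_
  have hv2 : v ^ 2 ≤ 1 := by nlinarith [hv.1, hv.2]
  have hU2 : 0 < 1 - U ^ 2 := by nlinarith
  have hUv : U ^ 2 ≤ v ^ 2 := pow_le_pow_left₀ h0 hv.1 2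
  rw [w_eq _ hv2, w_eq _ hv2, sqrt_pow_add_two i hv2, R, div_pow, Real.sq_sqrt hU2.le]
  have : U ^ 2 / (1 - U ^ 2) * (1 - v ^ 2) ≤ v ^ 2 := by
    rw [div_mul_eq_mul_div, div_le_iff₀ hU2]; nlinarith
  calc U ^ 2 / (1 - U ^ 2) * (√(1 - v ^ 2) ^ i * (1 - v ^ 2))
      = √(1 - v ^ 2) ^ i * (U ^ 2 / (1 - U ^ 2) * (1 - v ^ 2)) := by ring
    _ ≤ √(1 - v ^ 2) ^ i * v ^ 2 := by gcongr
    _ = v ^ 2 * √(1 - v ^ 2) ^ i := by ring

/-! ### The transport for a continuous profile -/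

section core

variable (j : ℕ) (f : ℝ → ℝ)

/-- Distribution function of the cone measure. -/
noncomputable def Phi (t : ℝ) : ℝ :=
  (((j:ℝ) + 5) * (∫ s in (0:ℝ)..t, f s ^ (j + 4)) - t * f t ^ (j + 4)) / ((j:ℝ) + 4)

/-- Normalising constant. -/
noncomputable def kk : ℝ := ballInt (j + 2) / Phi j f 1

/-- The transport. -/
noncomputable def uu (t : ℝ) : ℝ := Binv (j + 2) (kk j f * Phi j f t)

/-- The vector field on `[0,1)`. -/
noncomputable def gg (t : ℝ) : ℝ := R (uu j f t)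

/-- Primitive of the second Hölder factor. -/
noncomputable def PP (t : ℝ) : ℝ :=
  kk j f / ((j:ℝ) + 3) * (((j:ℝ) + 4) * (∫ s in (0:ℝ)..t, f s ^ (j + 3)) - t * f t ^ (j + 3))

end core

/-! ### Properties of the profile -/

/-- The hypotheses on a continuous profile. -/
structure Prof (f : ℝ → ℝ) : Prop where
  cont : Continuous f
  conc : ConcaveOn ℝ (Icc (-1) 1) f
  even : ∀ t, f (-t) = f t
  pos : ∀ t ∈ Ioo (-1:ℝ) 1, 0 < f t
  f_one : f 1 = 0

section props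

variable {j : ℕ} {f : ℝ → ℝ} (P : Prof f)
include P

lemma Prof.anti : AntitoneOn f (Icc 0 1) := fun a ha b hb hab => by
  have h := P.conc.ge_on_segment (x := -b) (y := b) (z := a) ⟨by linarith [hb.2], by linarith [hb.1]⟩
    ⟨by linarith [hb.1], hb.2⟩
    (by rw [segment_eq_Icc (by linarith [hb.1])]; exact ⟨by linarith [ha.1, hb.1], hab⟩)
  rwa [P.even, min_self] at h

lemma Prof.nonneg {t : ℝ} (ht : t ∈ Icc (0:ℝ) 1) : 0 ≤ f t := by
  rcases lt_or_eq_of_le ht.2 with h | h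
  · exact (P.pos t ⟨by linarith [ht.1], h⟩).le
  · rw [h, P.f_one]

lemma Prof.intPow (i : ℕ) (a b : ℝ) : IntervalIntegrable (fun s => f s ^ i) volume a b :=
  (P.cont.pow i).intervalIntegrable a b

lemma Prof.hasDerivPrim (i : ℕ) (t : ℝ) :
    HasDerivAt (fun x => ∫ s in (0:ℝ)..x, f s ^ i) (f t ^ i) t :=
  intervalIntegral.integral_hasDerivAt_right (P.intPow i _ _)
    (P.cont.pow i).stronglyMeasurable.stronglyMeasurableAtFilter (P.cont.pow i).continuousAt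

lemma Prof.tail_pos (i : ℕ) {a : ℝ} (ha : 0 ≤ a) (ha1 : a < 1) : 0 < ∫ s in a..1, f s ^ i := by
  refine intervalIntegral.integral_pos ha1 (P.cont.pow i).continuousOn (fun x hx => ?_)
    ⟨a, left_mem_Icc.2 ha1.le, pow_pos (P.pos a ⟨by linarith, ha1⟩) i⟩
  exact pow_nonneg (P.nonneg ⟨by linarith [hx.1], hx.2⟩) i

lemma Prof.split (i : ℕ) (t : ℝ) :
    (∫ s in (0:ℝ)..t, f s ^ i) + ∫ s in t..1, f s ^ i = ∫ s in (0:ℝ)..1, f s ^ i :=
  intervalIntegral.integral_add_adjacent_intervals (P.intPow i _ _) (P.intPow i _ _)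

lemma Prof.low (i : ℕ) {t : ℝ} (ht : t ∈ Icc (0:ℝ) 1) :
    t * f t ^ i ≤ ∫ s in (0:ℝ)..t, f s ^ i := by
  have h := intervalIntegral.integral_mono_on ht.1 intervalIntegrable_const (P.intPow i 0 t)
    (f := fun _ => f t ^ i) fun x hx => pow_le_pow_left₀ (P.nonneg ht)
      (P.anti ⟨hx.1, hx.2.trans ht.2⟩ ht hx.2) i
  simpa using h

lemma Prof.I_pos (i : ℕ) : 0 < ∫ s in (0:ℝ)..1, f s ^ i := P.tail_pos i le_rfl one_pos

lemma Prof.Phi_one :
    Phi j f 1 = ((j:ℝ) + 5) / ((j:ℝ) + 4) * ∫ s in (0:ℝ)..1, f s ^ (j + 4) := by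
  simp [Phi, P.f_one]; ring

lemma Prof.Phi_one_pos : 0 < Phi j f 1 := by
  have := P.I_pos (j + 4)
  rw [P.Phi_one]; positivity

omit P in
lemma Phi_zero : Phi j f 0 = 0 := by simp [Phi]

lemma Prof.Phi_nonneg {t : ℝ} (ht : t ∈ Icc (0:ℝ) 1) : 0 ≤ Phi j f t := by
  have h := P.low (j + 4) ht
  have h' : (0:ℝ) ≤ t * f t ^ (j + 4) := mul_nonneg ht.1 (pow_nonneg (P.nonneg ht) _)
  refine div_nonneg ?_ (by positivity)
  nlinarith [(Nat.cast_nonneg j : (0:ℝ) ≤ j)]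

lemma Prof.Phi_pos {t : ℝ} (ht : t ∈ Ioo (0:ℝ) 1) : 0 < Phi j f t := by
  have h := P.low (j + 4) (t := t) ⟨ht.1.le, ht.2.le⟩
  have h' : (0:ℝ) < t * f t ^ (j + 4) :=
    mul_pos ht.1 (pow_pos (P.pos t ⟨by linarith [ht.1], ht.2⟩) _)
  refine div_pos ?_ (by positivity)
  nlinarith [(Nat.cast_nonneg j : (0:ℝ) ≤ j)]

lemma Prof.Phi_tail (t : ℝ) : Phi j f 1 - Phi j f t =
    (((j:ℝ) + 5) * (∫ s in t..1, f s ^ (j + 4)) + t * f t ^ (j + 4)) / ((j:ℝ) + 4) := by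
  simp only [Phi, P.f_one]
  rw [← P.split (j + 4) t]
  ring

lemma Prof.Phi_lt {t : ℝ} (ht0 : 0 ≤ t) (ht1 : t < 1) : Phi j f t < Phi j f 1 := by
  have h1 := P.tail_pos (j + 4) ht0 ht1
  have h2 := P.nonneg (t := t) ⟨ht0, ht1.le⟩
  have h : 0 < (((j:ℝ) + 5) * (∫ s in t..1, f s ^ (j + 4)) + t * f t ^ (j + 4)) / ((j:ℝ) + 4) := by
    positivity
  linarith [P.Phi_tail (j := j) t]

lemma Prof.Phi_cont : Continuous (Phi j f) := by
  have : Continuous fun x => ∫ s in (0:ℝ)..x, f s ^ (j + 4) :=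
    continuous_iff_continuousAt.2 fun x => (P.hasDerivPrim _ x).continuousAt
  have := P.cont
  unfold Phi; fun_prop

lemma Prof.kk_pos : 0 < kk j f := div_pos (ballInt_pos _) P.Phi_one_pos

lemma Prof.kk_Phi : kk j f * Phi j f 1 = ballInt (j + 2) :=
  div_mul_cancel₀ _ P.Phi_one_pos.ne'

lemma Prof.kk_eq : kk j f = ballInt (j + 4) / ∫ s in (0:ℝ)..1, f s ^ (j + 4) := by
  have h := ballInt_rec (j + 2)
  push_cast at h
  have h4 : ballInt (j + 2) = ((j:ℝ) + 5) / ((j:ℝ) + 4) * ballInt (j + 4) := by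
    rw [div_mul_eq_mul_div, eq_div_iff (by positivity)]; linarith [h]
  have := P.I_pos (j + 4)
  rw [kk, P.Phi_one, h4]
  field_simp

omit P in
lemma uu_zero : uu j f 0 = 0 := by
  simp only [uu, Phi_zero, mul_zero]
  conv_lhs => rw [← B_zero (j + 2), Binv_B]

omit P in
lemma gg_zero : gg j f 0 = 0 := by simp [gg, uu_zero, R]

lemma Prof.uu_one : uu j f 1 = 1 := by
  simp only [uu, P.kk_Phi, ← B_one, Binv_B]

lemma Prof.uu_cont : Continuous (uu j f) := (Binv_cont _).comp (P.Phi_cont.const_mul _)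

lemma Prof.uu_lt {t : ℝ} (ht0 : 0 ≤ t) (ht1 : t < 1) : uu j f t < 1 := by
  rw [← P.uu_one (j := j)]
  exact Binv_mono _ (mul_lt_mul_of_pos_left (P.Phi_lt ht0 ht1) P.kk_pos)

lemma Prof.uu_nonneg {t : ℝ} (ht : t ∈ Icc (0:ℝ) 1) : 0 ≤ uu j f t := by
  rw [← uu_zero (j := j) (f := f)]
  refine (Binv_mono _).monotone ?_
  rw [Phi_zero]
  exact mul_le_mul_of_nonneg_left (P.Phi_nonneg ht) P.kk_pos.le

lemma Prof.uu_pos {t : ℝ} (ht : t ∈ Ioo (0:ℝ) 1) : 0 < uu j f t := by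
  rw [← uu_zero (j := j) (f := f)]
  refine Binv_mono _ ?_
  rw [Phi_zero]
  exact mul_lt_mul_of_pos_left (P.Phi_pos ht) P.kk_pos

lemma Prof.uu_sq {t : ℝ} (ht0 : 0 ≤ t) (ht1 : t < 1) : uu j f t ^ 2 < 1 := by
  have h1 := P.uu_lt (j := j) ht0 ht1
  have h2 := P.uu_nonneg (j := j) (t := t) ⟨ht0, ht1.le⟩
  nlinarith

lemma Prof.exists_T {η : ℝ} (hη : 0 < η) : ∃ T ∈ Ioo (0:ℝ) 1,
    (1 - η) * ballInt (j + 1) ^ (j + 4 + 1) < B (j + 1) (uu j f T) ^ (j + 4 + 1) := by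
  have h1 : (1 - η) * ballInt (j + 1) ^ (j + 4 + 1) < B (j + 1) (uu j f 1) ^ (j + 4 + 1) := by
    rw [P.uu_one, B_one]
    nlinarith [pow_pos (ballInt_pos (j + 1)) (j + 4 + 1)]
  have h2 : ∀ᶠ t in 𝓝[<] (1:ℝ), t ∈ Ioo (0:ℝ) 1 ∧
      (1 - η) * ballInt (j + 1) ^ (j + 4 + 1) < B (j + 1) (uu j f t) ^ (j + 4 + 1) :=
    Filter.Eventually.and (Ioo_mem_nhdsLT one_pos)
      (nhdsWithin_le_nhds ((((B_cont (j + 1)).comp P.uu_cont).pow _).continuousAt.eventually
        (lt_mem_nhds h1)))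
  exact h2.exists

variable {T : ℝ}

lemma Prof.lp_f (hT1 : T < 1) : Lp T f := by
  have h := P.conc.locallyLipschitzOn_interior
  rw [interior_Icc] at h
  exact LocallyLipschitzOn.exists_lipschitzOnWith_of_compact isCompact_Icc
    (h.mono (Icc_subset_Ioo (by norm_num) hT1))

lemma Prof.lp_prim (i : ℕ) : Lp T fun x => ∫ s in (0:ℝ)..x, f s ^ i :=
  Lp.of_deriv (P.hasDerivPrim i) (P.cont.pow i)

lemma Prof.lp_Phi (hT1 : T < 1) : Lp T (Phi j f) := by
  have h := (((P.lp_prim (j + 4)).const_mul ((j:ℝ) + 5)).sub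
    (Lp.ident.mul ((P.lp_f hT1).pow (j + 4)))).const_mul ((1:ℝ) / ((j:ℝ) + 4))
  convert h using 2 with t
  rw [Phi]; ring

lemma Prof.exists_bound (hT0 : 0 < T) (hT1 : T < 1) :
    ∃ c < 1, MapsTo (uu j f) (Icc 0 T) (Icc 0 c) := by
  obtain ⟨t₁, ht₁, hmax⟩ :=
    isCompact_Icc.exists_isMaxOn (nonempty_Icc.2 hT0.le) (P.uu_cont (j := j)).continuousOn
  exact ⟨uu j f t₁, P.uu_lt ht₁.1 (lt_of_le_of_lt ht₁.2 hT1), fun t ht =>
    ⟨P.uu_nonneg ⟨ht.1, ht.2.trans hT1.le⟩, hmax ht⟩⟩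

lemma Prof.lp_uu (hT0 : 0 < T) (hT1 : T < 1) : Lp T (uu j f) := by
  obtain ⟨c, hc1, hmaps⟩ := P.exists_bound (j := j) hT0 hT1
  have hmem : ∀ y ∈ Icc (0:ℝ) (B (j + 2) c), Binv (j + 2) y ^ 2 < 1 := fun y hy => by
    have h1 : Binv (j + 2) (B (j + 2) 0) ≤ Binv (j + 2) y :=
      (Binv_mono _).monotone (by simpa using hy.1)
    have h2 : Binv (j + 2) y ≤ Binv (j + 2) (B (j + 2) c) := (Binv_mono _).monotone hy.2
    rw [Binv_B] at h1 h2
    nlinarith
  refine Lp.comp (φ := Binv (j + 2)) ((P.lp_Phi hT1).const_mul (kk j f))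
    (φ' := fun y => (w (j + 2) (Binv (j + 2) y))⁻¹) (lo := 0) (hi := B (j + 2) c)
    (fun y hy => Binv_hasDerivAt _ (hmem y hy).ne) ?_ ?_
  · exact ContinuousOn.inv₀ ((w_cont _).comp (Binv_cont _)).continuousOn
      fun y hy => (w_pos _ (hmem y hy).ne).ne'
  · intro t ht
    refine ⟨mul_nonneg P.kk_pos.le (P.Phi_nonneg ⟨ht.1, ht.2.trans hT1.le⟩), ?_⟩
    have h' := (B_strictMono (j + 2)).monotone (hmaps ht).2
    rwa [uu, B_Binv] at h'

lemma Prof.lp_comp_uu {φ φ' : ℝ → ℝ} (hT0 : 0 < T) (hT1 : T < 1)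
    (hd : ∀ x : ℝ, x ^ 2 < 1 → HasDerivAt φ (φ' x) x)
    (hc : ContinuousOn φ' {x | x ^ 2 < 1}) : Lp T fun t => φ (uu j f t) := by
  obtain ⟨c, hc1, hmaps⟩ := P.exists_bound (j := j) hT0 hT1
  have hsub : Icc (0:ℝ) c ⊆ {x | x ^ 2 < 1} := fun x hx => by
    show x ^ 2 < 1
    nlinarith [hx.1, hx.2]
  exact Lp.comp (φ := φ) (P.lp_uu hT0 hT1) (fun x hx => hd x (hsub hx)) (hc.mono hsub) hmaps

lemma Prof.lp_gg (hT0 : 0 < T) (hT1 : T < 1) : Lp T (gg j f) :=
  P.lp_comp_uu (φ := R) hT0 hT1 (fun _ hx => R_hasDerivAt hx)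
    (ContinuousOn.inv₀ (by fun_prop) fun x hx =>
      (pow_pos (Real.sqrt_pos.2 (sub_pos.2 hx)) 3).ne')

lemma Prof.lp_Z (hT0 : 0 < T) (hT1 : T < 1) : Lp T fun t => B (j + 1) (uu j f t) :=
  P.lp_comp_uu hT0 hT1 (fun x _ => B_hasDerivAt (j + 1) x) (w_cont _).continuousOn

lemma Prof.lp_PP (hT1 : T < 1) : Lp T (PP j f) :=
  (((P.lp_prim (j + 3)).const_mul ((j:ℝ) + 4)).sub
    (Lp.ident.mul ((P.lp_f hT1).pow (j + 3)))).const_mul _

end props

/-- The field: `gg` frozen outside `[-T,T]`, extended by oddness. -/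
noncomputable def GG (j : ℕ) (f : ℝ → ℝ) (T t : ℝ) : ℝ :=
  gg j f (min T (max 0 t)) - gg j f (min T (max 0 (-t)))

/-- Primitive of the quadratic integrand. -/
noncomputable def WW (j : ℕ) (f : ℝ → ℝ) (t : ℝ) : ℝ :=
  t * f t ^ (j + 4) * gg j f t ^ 2 + ((j:ℝ) + 4) / kk j f * K j (uu j f t)

/-- The density of the transported measure. -/
noncomputable def dens (j : ℕ) (f : ℝ → ℝ) (t : ℝ) : ℝ :=
  kk j f * (f t ^ (j + 3) * (f t - t * deriv f t))

section field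

variable {j : ℕ} {f : ℝ → ℝ} (P : Prof f) {T : ℝ} (hT0 : 0 < T) (hT1 : T < 1)
include P hT0 hT1

lemma Prof.lp_WW : Lp T (WW j f) :=
  ((Lp.ident.mul ((P.lp_f hT1).pow (j + 4))).mul ((P.lp_gg hT0 hT1).pow 2)).add
    ((P.lp_comp_uu hT0 hT1 (fun x _ => K_hasDerivAt j x) (K_cont_int j).continuousOn).const_mul _)

lemma Prof.GG_lip : ∃ L, LipschitzWith L (GG j f T) := by
  obtain ⟨L, hL⟩ := P.lp_gg (j := j) hT0 hT1
  have hcl : LipschitzWith 1 fun x : ℝ => min T (max 0 x) :=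
    (LipschitzWith.id.const_max 0).const_min T
  have hmem : ∀ x : ℝ, min T (max 0 x) ∈ Icc 0 T := fun x =>
    ⟨le_min hT0.le (le_max_left _ _), min_le_left _ _⟩
  refine ⟨L + L, LipschitzWith.of_dist_le_mul fun x y => ?_⟩
  have hA : ∀ x y : ℝ, dist (gg j f (min T (max 0 x))) (gg j f (min T (max 0 y)))
      ≤ L * dist x y := fun x y => by
    refine (hL.dist_le_mul _ (hmem x) _ (hmem y)).trans ?_
    have := hcl.dist_le_mul x y
    simp only [NNReal.coe_one, one_mul] at this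
    exact mul_le_mul_of_nonneg_left this L.coe_nonneg
  have h1 := hA x y
  have h2 := hA (-x) (-y)
  rw [dist_neg_neg] at h2
  simp only [GG, NNReal.coe_add, add_mul]
  exact (dist_sub_sub_le _ _ _ _).trans (add_le_add h1 h2)

omit P hT1 in
lemma GG_in {t : ℝ} (ht : t ∈ Ioo (0:ℝ) T) : GG j f T =ᶠ[𝓝 t] gg j f := by
  filter_upwards [Ioo_mem_nhds ht.1 ht.2] with y hy
  simp [GG, max_eq_right hy.1.le, min_eq_right hy.2.le, max_eq_left (neg_nonpos.2 hy.1.le),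
    hT0.le, gg_zero]

omit P hT1 in
lemma GG_out {t : ℝ} (ht : T < t) : GG j f T =ᶠ[𝓝 t] fun _ => gg j f T := by
  filter_upwards [Ioi_mem_nhds ht] with y (hy : T < y)
  have hy0 : 0 ≤ y := hT0.le.trans hy.le
  simp [GG, max_eq_right hy0, min_eq_left hy.le, max_eq_left (neg_nonpos.2 hy0), hT0.le, gg_zero]

lemma Prof.ae_in :
    ∀ᵐ t : ℝ, t ∈ uIoc (0:ℝ) T → t ∈ Ioo (0:ℝ) T ∧ DifferentiableAt ℝ f t := by
  filter_upwards [((P.lp_f hT1).ac hT0.le).ae_differentiableAt, Measure.ae_ne volume T]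
    with t h1 h2 ht
  rw [uIoc_of_le hT0.le] at ht
  exact ⟨⟨ht.1, lt_of_le_of_ne ht.2 h2⟩,
    h1 (by rw [uIcc_of_le hT0.le]; exact ⟨ht.1.le, ht.2⟩)⟩

variable {t : ℝ} (ht : t ∈ Ioo (0:ℝ) T) (hdf : DifferentiableAt ℝ f t)
include ht hdf

omit hT0 hT1 ht in
lemma Prof.hasDeriv_Phi :
    HasDerivAt (Phi j f) (f t ^ (j + 3) * (f t - t * deriv f t)) t := by
  have hp : HasDerivAt (fun x => f x ^ (j + 3 + 1))
      ((((j + 3 : ℕ) : ℝ) + 1) * f t ^ (j + 3) * deriv f t) t := by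
    simpa using! hdf.hasDerivAt.pow (j + 3 + 1)
  have h := (((P.hasDerivPrim (j + 4) t).const_mul ((j:ℝ) + 5)).sub
    ((hasDerivAt_id t).mul hp)).div_const ((j:ℝ) + 4)
  refine h.congr_deriv ?_
  simp only [id]; push_cast
  field_simp
  ring

omit hT0 in
lemma Prof.hasDeriv_uu :
    HasDerivAt (uu j f) (dens j f t / √(1 - uu j f t ^ 2) ^ (j + 2)) t := by
  have hu2 := P.uu_sq (j := j) ht.1.le (ht.2.trans hT1)
  have h := (Binv_hasDerivAt (j + 2) (y := kk j f * Phi j f t) hu2.ne).comp t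
    ((P.hasDeriv_Phi hdf).const_mul (kk j f))
  refine h.congr_deriv ?_
  rw [show Binv (j + 2) (kk j f * Phi j f t) = uu j f t from rfl, w_eq _ hu2.le, dens]
  ring

omit hT0 in
lemma Prof.hasDeriv_gg :
    HasDerivAt (gg j f) (dens j f t / √(1 - uu j f t ^ 2) ^ (j + 5)) t := by
  have hu2 := P.uu_sq (j := j) ht.1.le (ht.2.trans hT1)
  have hs : 0 < √(1 - uu j f t ^ 2) := Real.sqrt_pos.2 (sub_pos.2 hu2)
  refine ((R_hasDerivAt hu2).comp t (P.hasDeriv_uu hT1 ht hdf)).congr_deriv ?_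
  field_simp
  ring

lemma Prof.deriv_GG :
    deriv (GG j f T) t = dens j f t / √(1 - uu j f t ^ 2) ^ (j + 5) := by
  rw [(GG_in hT0 ht).deriv_eq]; exact (P.hasDeriv_gg hT1 ht hdf).deriv

lemma Prof.deriv_WW :
    deriv (WW j f) t = f t ^ (j + 4) * qd (j + 4 + 1) (GG j f T) t := by
  have hu2 := P.uu_sq (j := j) ht.1.le (ht.2.trans hT1)
  have hs : 0 < √(1 - uu j f t ^ 2) := Real.sqrt_pos.2 (sub_pos.2 hu2)
  have hk := P.kk_pos (j := j)
  have hp : HasDerivAt (fun x => f x ^ (j + 3 + 1))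
      ((((j + 3 : ℕ) : ℝ) + 1) * f t ^ (j + 3) * deriv f t) t := by
    simpa using! hdf.hasDerivAt.pow (j + 3 + 1)
  have hWd : HasDerivAt (WW j f) _ t :=
    (((hasDerivAt_id t).mul hp).mul ((P.hasDeriv_gg (j := j) hT1 ht hdf).pow 2)).add
      (((K_hasDerivAt j (uu j f t)).comp t (P.hasDeriv_uu hT1 ht hdf)).const_mul
        (((j:ℝ) + 4) / kk j f))
  rw [hWd.deriv, qd, P.deriv_GG hT0 hT1 ht hdf, (GG_in hT0 ht).eq_of_nhds, w_eq _ hu2.le]
  simp only [id, Pi.pow_apply, Pi.mul_apply, gg, R, dens]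
  push_cast
  field_simp
  ring

omit hT0 in
lemma Prof.deriv_Z : deriv (fun t => B (j + 1) (uu j f t)) t =
    dens j f t / √(1 - uu j f t ^ 2) := by
  have hu2 := P.uu_sq (j := j) ht.1.le (ht.2.trans hT1)
  have hs : 0 < √(1 - uu j f t ^ 2) := Real.sqrt_pos.2 (sub_pos.2 hu2)
  have hZd := (B_hasDerivAt (j + 1) (uu j f t)).comp t (P.hasDeriv_uu hT1 ht hdf)
  rw [show deriv (fun t => B (j + 1) (uu j f t)) t = _ from hZd.deriv, w_eq _ hu2.le]
  field_simp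
  ring

lemma Prof.deriv_PP : deriv (PP j f) t = dens j f t / f t := by
  have hft : 0 < f t := P.pos t ⟨by linarith [ht.1], ht.2.trans hT1⟩
  have hp : HasDerivAt (fun x => f x ^ (j + 2 + 1))
      ((((j + 2 : ℕ) : ℝ) + 1) * f t ^ (j + 2) * deriv f t) t := by
    simpa using! hdf.hasDerivAt.pow (j + 2 + 1)
  have h : HasDerivAt (PP j f) _ t :=
    (((P.hasDerivPrim (j + 3) t).const_mul ((j:ℝ) + 4)).sub
      ((hasDerivAt_id t).mul hp)).const_mul (kk j f / ((j:ℝ) + 3))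
  rw [h.deriv, dens]
  simp only [id]; push_cast
  field_simp
  ring

omit hT0 in
lemma Prof.dens_nonneg : 0 ≤ dens j f t := by
  have h' := P.anti.derivWithin_nonpos (x := t)
  rw [hdf.derivWithin (uniqueDiffOn_Icc one_pos t ⟨ht.1.le, (ht.2.trans hT1).le⟩)] at h'
  have hft : 0 < f t := P.pos t ⟨by linarith [ht.1], ht.2.trans hT1⟩
  have hk := P.kk_pos (j := j)
  have hw0 : 0 ≤ f t - t * deriv f t := by nlinarith [ht.1]
  unfold dens; positivity

/-- The pointwise arithmetic-geometric inequality. -/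
lemma Prof.pointwise {μ : ℝ} (hμ : 0 < μ) :
    ((j:ℝ) + 5) * deriv (fun t => B (j + 1) (uu j f t)) t ≤
      μ ^ (j + 4) * (f t ^ (j + 4) * deriv (GG j f T) t) +
        ((j:ℝ) + 4) / μ * deriv (PP j f) t := by
  rw [P.deriv_Z hT1 ht hdf, P.deriv_GG hT0 hT1 ht hdf, P.deriv_PP hT0 hT1 ht hdf]
  have hY := P.dens_nonneg (j := j) hT1 ht hdf
  have hft : 0 < f t := P.pos t ⟨by linarith [ht.1], ht.2.trans hT1⟩
  have hs : 0 < √(1 - uu j f t ^ 2) :=
    Real.sqrt_pos.2 (sub_pos.2 (P.uu_sq ht.1.le (ht.2.trans hT1)))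
  set s := √(1 - uu j f t ^ 2)
  set Y := dens j f t
  have hz0 : 0 < μ * f t / s := by positivity
  have hb : ((j:ℝ) + 5) * (μ * f t / s) ≤ (μ * f t / s) ^ (j + 5) + ((j:ℝ) + 4) := by
    have := one_add_mul_le_pow (a := μ * f t / s - 1) (by linarith) (j + 5)
    push_cast at this
    rw [add_sub_cancel] at this
    linarith
  have hcoef : 0 ≤ Y / (μ * f t) := by positivity
  refine le_of_eq_of_le ?_ ((mul_le_mul_of_nonneg_left hb hcoef).trans_eq ?_)
  · field_simp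
  · rw [div_pow, mul_pow]
    field_simp
    ring

end field

section integrals

variable {j : ℕ} {f : ℝ → ℝ} (P : Prof f) {T : ℝ} (hT0 : 0 < T) (hT1 : T < 1)
include P hT0 hT1

lemma Prof.quad_le :
    (∫ t in (0:ℝ)..1, f t ^ (j + 4) * qd (j + 4 + 1) (GG j f T) t) ≤
      ((j:ℝ) + 5) / ((j:ℝ) + 2) * ∫ t in (0:ℝ)..1, f t ^ (j + 4) := by
  have hin : ∀ᵐ t : ℝ, t ∈ uIoc (0:ℝ) T →
      f t ^ (j + 4) * qd (j + 4 + 1) (GG j f T) t = deriv (WW j f) t := by
    filter_upwards [P.ae_in hT0 hT1] with t h ht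
    exact (P.deriv_WW hT0 hT1 (h ht).1 (h ht).2).symm
  have hout : ∀ᵐ t : ℝ, t ∈ uIoc T 1 →
      f t ^ (j + 4) * qd (j + 4 + 1) (GG j f T) t =
        ((j:ℝ) + 5) * gg j f T ^ 2 * f t ^ (j + 4) := by
    refine Eventually.of_forall fun t ht => ?_
    rw [uIoc_of_le hT1.le] at ht
    rw [qd, (GG_out hT0 ht.1).deriv_eq, (GG_out hT0 ht.1).eq_of_nhds, deriv_const]
    push_cast; ring
  have i1 : IntervalIntegrable (fun t => f t ^ (j + 4) * qd (j + 4 + 1) (GG j f T) t)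
      volume 0 T :=
    ((P.lp_WW hT0 hT1).intDeriv hT0.le).congr_ae ((ae_restrict_iff' measurableSet_uIoc).2
      (hin.mono fun t h ht => (h ht).symm))
  have i2 : IntervalIntegrable (fun t => f t ^ (j + 4) * qd (j + 4 + 1) (GG j f T) t)
      volume T 1 :=
    ((P.intPow (j + 4) T 1).const_mul (((j:ℝ) + 5) * gg j f T ^ 2)).congr_ae
      ((ae_restrict_iff' measurableSet_uIoc).2 (hout.mono fun t h ht => (h ht).symm))
  rw [← intervalIntegral.integral_add_adjacent_intervals i1 i2,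
    intervalIntegral.integral_congr_ae hin, intervalIntegral.integral_congr_ae hout,
    (P.lp_WW hT0 hT1).ftc hT0.le, intervalIntegral.integral_const_mul]
  have hW0 : WW j f 0 = 0 := by simp [WW, uu_zero, K]
  have hk := P.kk_pos (j := j)
  set U := uu j f T with hU
  have hkT : B (j + 2) U = kk j f * Phi j f T := by rw [hU, uu, B_Binv]
  have htail := tail_le j (P.uu_pos (j := j) ⟨hT0, hT1⟩).le (P.uu_lt (j := j) hT0.le hT1)
  rw [← hU, B_one, hkT, ← P.kk_Phi, ← mul_sub, P.Phi_tail, K_one] at htail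
  rw [hW0, sub_zero, WW, gg, ← hU]
  have hm : 0 < ((j:ℝ) + 4) / kk j f := by positivity
  have h := mul_le_mul_of_nonneg_left htail hm.le
  have e1 : ((j:ℝ) + 4) / kk j f * (R U ^ 2 * (kk j f *
      ((((j:ℝ) + 5) * (∫ s in T..1, f s ^ (j + 4)) + T * f T ^ (j + 4)) / ((j:ℝ) + 4)))) =
      R U ^ 2 * (((j:ℝ) + 5) * (∫ s in T..1, f s ^ (j + 4)) + T * f T ^ (j + 4)) := by
    field_simp
  have e2 : ((j:ℝ) + 4) / kk j f * (ballInt (j + 2) / ((j:ℝ) + 2)) =
      ((j:ℝ) + 5) / ((j:ℝ) + 2) * ∫ s in (0:ℝ)..1, f s ^ (j + 4) := by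
    rw [← P.kk_Phi, P.Phi_one]; field_simp
  rw [e1, mul_sub, e2] at h
  linarith

lemma Prof.linear_ge :
    B (j + 1) (uu j f T) ^ (j + 4 + 1) ≤
      (kk j f * (∫ t in (0:ℝ)..1, f t ^ (j + 3)) * (((j:ℝ) + 4) / ((j:ℝ) + 3))) ^ (j + 4) *
        ∫ t in (0:ℝ)..1, f t ^ (j + 4) * deriv (GG j f T) t := by
  set S := B (j + 1) (uu j f T) with hS
  have hSpos : 0 < S := by
    rw [hS, ← B_zero (j + 1)]; exact B_strictMono _ (P.uu_pos ⟨hT0, hT1⟩)
  set Iq := ∫ s in (0:ℝ)..1, f s ^ (j + 3) with hIq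
  have hIq0 : 0 < Iq := P.I_pos _
  have hk := P.kk_pos (j := j)
  set C := kk j f * Iq * (((j:ℝ) + 4) / ((j:ℝ) + 3)) with hC
  have hCpos : 0 < C := by positivity
  set μ := C / S with hμ
  have hμpos : 0 < μ := div_pos hCpos hSpos
  have hGint : IntervalIntegrable (fun t => f t ^ (j + 4) * deriv (GG j f T) t) volume 0 T := by
    obtain ⟨L', hL'⟩ := P.GG_lip (j := j) hT0 hT1
    exact ((hL'.lipschitzOnWith.absolutelyContinuousOnInterval).intervalIntegrable_deriv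
      ).continuousOn_mul (P.cont.pow _).continuousOn
  have hz : ∀ᵐ t : ℝ, t ∈ uIoc T 1 → f t ^ (j + 4) * deriv (GG j f T) t = 0 := by
    refine Eventually.of_forall fun t ht => ?_
    rw [uIoc_of_le hT1.le] at ht
    rw [(GG_out hT0 ht.1).deriv_eq]; simp
  have i2 : IntervalIntegrable (fun t => f t ^ (j + 4) * deriv (GG j f T) t) volume T 1 :=
    (intervalIntegrable_const (c := (0:ℝ))).congr_ae
      ((ae_restrict_iff' measurableSet_uIoc).2 (hz.mono fun t h ht => (h ht).symm))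
  rw [← intervalIntegral.integral_add_adjacent_intervals hGint i2,
    intervalIntegral.integral_congr_ae hz, intervalIntegral.integral_zero, add_zero]
  set A := ∫ t in (0:ℝ)..T, f t ^ (j + 4) * deriv (GG j f T) t with hA
  have hPi := (P.lp_PP (j := j) hT1).intDeriv hT0.le
  have hZi := (P.lp_Z (j := j) hT0 hT1).intDeriv hT0.le
  have hmono := intervalIntegral.integral_mono_ae_restrict hT0.le (hZi.const_mul ((j:ℝ) + 5))
    ((hGint.const_mul (μ ^ (j + 4))).add (hPi.const_mul (((j:ℝ) + 4) / μ)))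
    (by
      rw [EventuallyLE, ae_restrict_iff' measurableSet_Icc]
      filter_upwards [P.ae_in hT0 hT1, Measure.ae_ne volume 0] with t h ht0 ht
      obtain ⟨htI, hdf⟩ := h (by
        rw [uIoc_of_le hT0.le]; exact ⟨lt_of_le_of_ne ht.1 (Ne.symm ht0), ht.2⟩)
      exact P.pointwise hT0 hT1 htI hdf hμpos)
  rw [intervalIntegral.integral_const_mul,
    intervalIntegral.integral_add (hGint.const_mul _) (hPi.const_mul _),
    intervalIntegral.integral_const_mul, intervalIntegral.integral_const_mul,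
    (P.lp_Z hT0 hT1).ftc hT0.le, (P.lp_PP hT1).ftc hT0.le, uu_zero, B_zero, sub_zero, ← hS,
    ← hA] at hmono
  have hP : PP j f T - PP j f 0 ≤ C := by
    have h1 := P.split (j + 3) T
    have h2 := P.tail_pos (j + 3) hT0.le hT1
    have h3 : 0 ≤ T * f T ^ (j + 3) :=
      mul_nonneg hT0.le (pow_nonneg (P.nonneg ⟨hT0.le, hT1.le⟩) _)
    have h4 : PP j f 0 = 0 := by simp [PP]
    rw [h4, sub_zero, PP]
    calc kk j f / ((j:ℝ) + 3) *
          (((j:ℝ) + 4) * (∫ s in (0:ℝ)..T, f s ^ (j + 3)) - T * f T ^ (j + 3))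
        ≤ kk j f / ((j:ℝ) + 3) * (((j:ℝ) + 4) * Iq) := by
          refine mul_le_mul_of_nonneg_left ?_ (by positivity)
          nlinarith
      _ = C := by rw [hC]; ring
  have h1 : ((j:ℝ) + 4) / μ * C = ((j:ℝ) + 4) * S := by rw [hμ]; field_simp
  have h2 : S ≤ μ ^ (j + 4) * A := by
    have h3 := mul_le_mul_of_nonneg_left hP (by positivity : 0 ≤ ((j:ℝ) + 4) / μ)
    rw [h1] at h3
    linarith
  calc S ^ (j + 4 + 1) = S ^ (j + 4) * S := pow_succ _ _
    _ ≤ S ^ (j + 4) * (μ ^ (j + 4) * A) := mul_le_mul_of_nonneg_left h2 (by positivity)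
    _ = C ^ (j + 4) * A := by
        rw [← mul_assoc, ← mul_pow, hμ, mul_div_cancel₀ _ hSpos.ne']

end integrals

theorem core (j : ℕ) {f : ℝ → ℝ} (P : Prof f) (η : ℝ) (hη : 0 < η) :
    ∃ G : ℝ → ℝ, (∃ L, LipschitzWith L G) ∧ (∀ t, G (-t) = -G t) ∧
      (∫ t in (0:ℝ)..1, f t ^ (j + 4) * qd (j + 4 + 1) G t) ≤
        ((j:ℝ) + 5) / ((j:ℝ) + 2) * ∫ t in (0:ℝ)..1, f t ^ (j + 4) ∧
      (1 - η) * (((j:ℝ) + 4) / ((j:ℝ) + 3) * ballInt (j + 3) ^ (j + 4 + 1)) ≤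
        (ballInt (j + 4) * (∫ t in (0:ℝ)..1, f t ^ (j + 3)) /
            ∫ t in (0:ℝ)..1, f t ^ (j + 4)) ^ (j + 4) *
          ∫ t in (0:ℝ)..1, f t ^ (j + 4) * deriv G t := by
  obtain ⟨T, ⟨hT0, hT1⟩, hTB⟩ := P.exists_T (j := j) hη
  refine ⟨GG j f T, P.GG_lip hT0 hT1, fun t => by simp [GG], P.quad_le hT0 hT1, ?_⟩
  have h := hTB.le.trans (P.linear_ge hT0 hT1)
  have hbr : ballInt (j + 1) = ((j:ℝ) + 4) / ((j:ℝ) + 3) * ballInt (j + 3) := by
    have h := ballInt_rec (j + 1)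
    push_cast at h
    rw [div_mul_eq_mul_div, eq_div_iff (by positivity)]; linarith [h]
  have hr : 0 < ((j:ℝ) + 4) / ((j:ℝ) + 3) := by positivity
  rw [hbr, P.kk_eq] at h
  set r := ((j:ℝ) + 4) / ((j:ℝ) + 3)
  set Im := ∫ t in (0:ℝ)..1, f t ^ (j + 4)
  set Iq := ∫ t in (0:ℝ)..1, f t ^ (j + 3)
  set A := ∫ t in (0:ℝ)..1, f t ^ (j + 4) * deriv (GG j f T) t
  rw [show ballInt (j + 4) / Im * Iq * r = r * (ballInt (j + 4) * Iq / Im) by ring, mul_pow,
    mul_pow, pow_succ r] at h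
  refine le_of_mul_le_mul_left ?_ (pow_pos hr (j + 4))
  linarith

end Vale.Agent.P237.Univ.OneD

namespace Vale.Agent.P237.Univ

/-- Module OneD. -/
theorem oneDU : OneDU := by
  intro m hm f hcont hconc heven hpos hf1 η hη
  obtain ⟨j, rfl⟩ : ∃ j, m = j + 4 := ⟨m - 4, by omega⟩
  set f' : ℝ → ℝ := fun t => f (max (-1) (min 1 t)) with hf'
  have heq : ∀ t ∈ Icc (-1:ℝ) 1, f' t = f t := fun t ht => by
    simp [hf', min_eq_right ht.2, max_eq_right ht.1]
  have hc' : Continuous f' :=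
    hcont.comp_continuous (by fun_prop) fun t =>
      ⟨le_max_left _ _, max_le (by norm_num) (min_le_left _ _)⟩
  have hconc' : ConcaveOn ℝ (Icc (-1) 1) f' := hconc.congr fun t ht => (heq t ht).symm
  have heven' : ∀ t, f' (-t) = f' t := fun t => by
    have e : max (-1:ℝ) (min 1 (-t)) = -max (-1) (min 1 t) := by
      rcases le_total t (-1) with h | h <;> rcases le_total t 1 with h' | h' <;>
        simp [max_def, min_def] <;> split_ifs <;> linarith
    simp only [hf', e, heven]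
  obtain ⟨G, h1, h2, h3, h4⟩ := OneD.core j (f := f') ⟨hc', hconc', heven',
    fun t ht => by rw [heq t ⟨ht.1.le, ht.2.le⟩]; exact hpos t ht,
    by rw [heq 1 ⟨by norm_num, le_rfl⟩, hf1]⟩ η hη
  have hEq : EqOn f' f (uIcc (0:ℝ) 1) := fun t ht => by
    rw [uIcc_of_le zero_le_one] at ht
    exact heq t ⟨by linarith [ht.1], ht.2⟩
  have e1 : ∀ (i : ℕ) (φ : ℝ → ℝ),
      (∫ t in (0:ℝ)..1, f' t ^ i * φ t) = ∫ t in (0:ℝ)..1, f t ^ i * φ t := fun i φ =>
    intervalIntegral.integral_congr fun t ht => by simp only [hEq ht]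
  have e2 : ∀ i : ℕ, (∫ t in (0:ℝ)..1, f' t ^ i) = ∫ t in (0:ℝ)..1, f t ^ i := fun i =>
    intervalIntegral.integral_congr fun t ht => by simp only [hEq ht]
  simp only [e1, e2] at h3 h4
  have r1 : (((j + 4 : ℕ) : ℝ) + 1) / (((j + 4 : ℕ) : ℝ) - 2) = ((j:ℝ) + 5) / ((j:ℝ) + 2) := by
    push_cast; ring_nf
  have r2 : ((j + 4 : ℕ) : ℝ) / (((j + 4 : ℕ) : ℝ) - 1) = ((j:ℝ) + 4) / ((j:ℝ) + 3) := by
    push_cast; ring_nf
  refine ⟨G, h1, h2, ?_, ?_⟩
  · rw [r1]; exact h3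
  · rw [r2, show j + 4 - 1 = j + 3 by omega]; exact h4

end Vale.Agent.P237.Univ
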