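import Mathlib
import Vale.Agent.P237.Univ.Profile
import Vale.Agent.P237.Sharp.Four
import Vale.Agent.P237.Sharp.OneD3.Main
import Vale.Agent.P237.Sharp.OneD4.Main

/-!
# P237, absolute constant: induction on the dimension
-/

open MeasureTheory Set Real Metric Filter Topology
open scoped Pointwise RealInnerProductSpace

namespace Vale.Agent.P237.Univ

/-- The ball's profile integral in terms of ball volumes. -/
lemma kap_succ_eq (j : ℕ) : kap (j + 2) = 2 * kap (j + 1) * ballInt (j + 1) := by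
  set v : E (j + 1 + 1) := e0 with hv
  have hv1 : ‖v‖ = 1 := by simp [hv, e0]
  have hs : supp (closedBall (0 : E (j + 1 + 1)) 1) v = 1 := by
    refine le_antisymm (csSup_le ((nonempty_closedBall.2 zero_le_one).image _) ?_) ?_
    · rintro _ ⟨x, hx, rfl⟩
      have := real_inner_le_norm x v
      rw [hv1, mul_one] at this
      exact this.trans (mem_closedBall_zero_iff.1 hx)
    · have := le_supp (isCompact_closedBall (0 : E (j + 1 + 1)) 1) v (mem_closedBall_zero_iff.2 hv1.le)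
      rwa [real_inner_self_eq_norm_sq, hv1, one_pow] at this
  obtain ⟨-, -, -, -, hV⟩ := profile (n := j) (Sharp.isBody_ball (m := j + 1 + 1))
    (fun x hx => by simpa using hx) hv1 (LinearIsometryEquiv.refl ℝ _) rfl
  rw [hs] at hV
  simp only [LinearIsometryEquiv.coe_refl, image_id] at hV
  show volume.real (closedBall (0 : E (j + 1 + 1)) 1) = _
  rw [hV, ballInt, mul_assoc]
  congr 1
  rw [← intervalIntegral.integral_const_mul]
  refine intervalIntegral.integral_congr fun t ht => ?_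
  rw [uIcc_of_le zero_le_one] at ht
  show volume.real (slice (closedBall (0 : E (j + 1 + 1)) 1) t) = _
  rw [Sharp.slice_ball ht, volume_real_closedBall _ (sqrt_nonneg _), mul_comm]

lemma ballInt_eq {k : ℕ} (hk : 1 ≤ k) : ballInt k = kap (k + 1) / (2 * kap k) := by
  obtain ⟨j, rfl⟩ : ∃ j, k = j + 1 := ⟨k - 1, by omega⟩
  rw [eq_div_iff (mul_pos two_pos (kap_pos _)).ne', kap_succ_eq j]
  ring

/-- The factor gained from dimension `d + 1` to `d + 2`. -/
noncomputable def sc (d : ℕ) : ℝ :=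
  √(((d:ℝ) - 1) / ((d:ℝ) + 2)) * (((d:ℝ) + 1) / d) *
    (kap (d + 1) ^ (2 * d + 3) / (kap d ^ (d + 2) * kap (d + 2) ^ (d + 1)))

lemma sc_eq {d : ℕ} (hd : 3 ≤ d) :
    sc d = 2 * √(((d:ℝ) - 1) / ((d:ℝ) + 2)) * (((d:ℝ) + 1) / d) *
      ballInt d ^ (d + 2) / ballInt (d + 1) ^ (d + 1) := by
  have p0 := (kap_pos d).ne'
  have p1 := (kap_pos (d + 1)).ne'
  have p2 := (kap_pos (d + 2)).ne'
  rw [sc, ballInt_eq (by omega), ballInt_eq (k := d + 1) (by omega)]
  simp only [div_pow, mul_pow, show d + 1 + 1 = d + 2 by rfl]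
  rw [show 2 * d + 3 = (d + 2) + (d + 1) by ring, pow_add (kap (d + 1)) (d + 2) (d + 1),
    pow_succ (2:ℝ) (d + 1)]
  field_simp

/-- One induction step. -/
theorem step (h1 : OneDU) (h2 : FluxU) (hJ : JohnU) (hS : SmoothU) {d : ℕ} (hd : 3 ≤ d) {c : ℝ}
    (hc : 0 ≤ c)
    (IH : ∀ Q : Set (E (d + 1)), IsBody Q → c * volume.real Q ^ d ≤ volume.real (projBody Q))
    {L₀ : Set (E (d + 1 + 1))} (hL₀ : IsBody L₀) :
    c * sc d * volume.real L₀ ^ (d + 1) ≤ volume.real (projBody L₀) := by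
  obtain ⟨M, hM, hMs⟩ := Sharp.exists_isMin (d + 1)
  obtain ⟨T, ι, _, cf, u, hB, hc0, hu, hsupp, hid⟩ := hJ (d + 1 + 1) (by omega) M hM.1 hMs
  set K := T '' M with hKdef
  have hK : Sharp.IsMin (n := d + 1) K := Sharp.isMin_linear hM T
  have hKs : ∀ x ∈ K, -x ∈ K := by
    rintro _ ⟨x, hx, rfl⟩; exact ⟨-x, hMs x hx, map_neg T x⟩
  refine (Sharp.le_ratio_iff hL₀).1 (le_trans ?_ (hK.2 L₀ hL₀))
  set n : ℝ := ((d + 1 + 1 : ℕ):ℝ) with hn
  have hn' : n = (d:ℝ) + 2 := by rw [hn]; push_cast; ring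
  have hd' : (3:ℝ) ≤ d := by exact_mod_cast hd
  set V := volume.real K with hVdef
  have hV0 : 0 < V := hK.1.volume_pos
  set k : ℝ := kap (d + 1) with hk
  have hk0 : 0 < k := kap_pos _
  set τ : ℝ := √(((d:ℝ) - 1) / ((d:ℝ) + 2)) with hτ
  have hτ0 : 0 < τ := sqrt_pos.2 (div_pos (by linarith) (by linarith))
  have hτ2 : τ ^ 2 = ((d:ℝ) - 1) / ((d:ℝ) + 2) := sq_sqrt (by apply div_nonneg <;> linarith)
  set Φ : ℝ := c * (2 * τ * (((d:ℝ) + 1) / d) * ballInt d ^ (d + 2) / ballInt (d + 1) ^ (d + 1))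
    with hΦ
  suffices H : ∀ η δ : ℝ, 0 < η → η < 1 → 0 < δ → δ < 1 →
      (1 - η) * (1 - δ) ^ d * Φ ≤ Sharp.ratio K by
    have e : c * sc d = Φ := by rw [hΦ, sc_eq hd]
    rw [e]
    have hcont : Continuous fun s : ℝ => (1 - s) * (1 - s) ^ d * Φ := by fun_prop
    have hlim : Tendsto (fun s : ℝ => (1 - s) * (1 - s) ^ d * Φ) (𝓝[>] 0) (𝓝 Φ) := by
      simpa using (hcont.tendsto 0).mono_left nhdsWithin_le_nhds
    refine le_of_tendsto hlim ?_
    filter_upwards [self_mem_nhdsWithin, nhdsWithin_le_nhds (gt_mem_nhds zero_lt_one)] with s h0 h1'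
    exact H s s h0 h1' h0 h1'
  intro η δ hη hη1 hδ hδ1
  obtain ⟨K', hK', hK's, hB', hsub, hvol, hcontact⟩ := hS d K hK.1 hKs hB δ hδ
  set V' := volume.real K' with hV'def
  have hV'0 : 0 < V' := hK'.volume_pos
  choose Li hLi using fun i => exists_frame (n := d + 1) (hu i)
  have hp : ∀ i, supp K' (u i) = 1 ∧ ∀ x ∈ K', ⟪x, u i⟫ = 1 → x = u i :=
    fun i => hcontact _ (hu i) (hsupp i)
  choose f hfc hfconc hfev hfpos hf1 hfA hfint using fun i =>
    profileU d K' hK' hK's (u i) (hu i) (hp i).1 (hp i).2 (Li i) (hLi i)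
  set I : ι → ℝ := fun i => ∫ t in (0:ℝ)..1, f i t ^ (d + 1) with hI
  set P : ι → ℝ := fun i => ∫ t in (0:ℝ)..1, f i t ^ d with hP
  choose G hGL hGodd hGq hGd using fun i =>
    h1 (d + 1) (by omega) (f i) (hfc i) (hfconc i) (hfev i) (hfpos i) (hf1 i) η hη
  set D : ι → ℝ := fun i => ∫ t in (0:ℝ)..1, f i t ^ (d + 1) * deriv (G i) t with hD
  have hVI : ∀ i, V' = 2 * k * I i := fun i => by
    have := hfint i (fun _ => 1) measurable_const ⟨1, fun t _ => by simp⟩ fun _ => rfl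
    simpa [hI, hV'def, setIntegral_const] using this
  have hbdd : ∀ i, ∃ C, ∀ t ∈ Icc (-1:ℝ) 1, |deriv (G i) t| ≤ C ∧
      |qd (d + 1 + 1) (G i) t| ≤ C := by
    intro i
    obtain ⟨L, hL⟩ := hGL i
    have hder : ∀ t, |deriv (G i) t| ≤ (L:ℝ) := fun t => by
      rw [← Real.norm_eq_abs]; exact norm_deriv_le_of_lipschitz hL
    obtain ⟨B, hB⟩ := (isCompact_Icc (a := (-1:ℝ)) (b := 1)).exists_bound_of_continuousOn
      hL.continuous.continuousOn
    refine ⟨max (L:ℝ) (n * B ^ 2 + 1 * (2 * B * (L:ℝ))), fun t ht => ⟨(hder t).trans (le_max_left _ _),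
      le_trans ?_ (le_max_right _ _)⟩⟩
    have hGt : |G i t| ≤ B := by simpa [Real.norm_eq_abs] using hB t ht
    have hB0 : 0 ≤ B := (abs_nonneg _).trans hGt
    refine (abs_add_le _ _).trans (add_le_add ?_ ?_)
    · rw [abs_mul, abs_of_nonneg (Nat.cast_nonneg _), abs_pow]
      exact mul_le_mul_of_nonneg_left (pow_le_pow_left₀ (abs_nonneg _) hGt 2) (by positivity)
    · rw [abs_mul, abs_mul, abs_mul, abs_two]
      refine mul_le_mul (abs_le.2 ht) ?_ (by positivity) zero_le_one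
      exact mul_le_mul (mul_le_mul_of_nonneg_left hGt zero_le_two) (hder t) (abs_nonneg _)
        (by positivity)
  have hdev : ∀ i t, deriv (G i) (-t) = deriv (G i) t := by
    intro i t
    have e : (fun s => G i (-s)) = fun s => -G i s := funext (hGodd i)
    have h := congrArg (fun F => deriv F t) e
    simp only [deriv_comp_neg, deriv.fun_neg] at h
    linarith
  have hint1 : ∀ i, ∫ x in K', deriv (G i) ⟪u i, x⟫ = 2 * k * D i := fun i =>
    hfint i _ (measurable_deriv _) ⟨_, fun t ht => ((hbdd i).choose_spec t ht).1⟩ (hdev i)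
  have hint2 : ∀ i, ∫ x in K', qd (d + 1 + 1) (G i) ⟪u i, x⟫ =
      2 * k * ∫ t in (0:ℝ)..1, f i t ^ (d + 1) * qd (d + 1 + 1) (G i) t := by
    intro i
    obtain ⟨L, hL⟩ := hGL i
    refine hfint i _ ?_ ⟨_, fun t ht => ((hbdd i).choose_spec t ht).2⟩ fun t => ?_
    · exact ((hL.continuous.measurable.pow_const 2).const_mul _).add
        (measurable_id.mul ((hL.continuous.measurable.const_mul 2).mul (measurable_deriv _)))
    · simp only [qd, hGodd, hdev]; ring
  have hsum : ∑ i, cf i = n := BL.sum_weights cf u hu hid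
  have hflux := h2 (d + 1 + 1) ι K' hK'.compact hK'.convex hB' cf u hc0 hu hid G hGL τ hτ0
  rw [← hV'def, ← hn] at hflux
  simp only [hint1, hint2] at hflux
  have hq : ∀ i, ∫ t in (0:ℝ)..1, f i t ^ (d + 1) * qd (d + 1 + 1) (G i) t ≤ I i / τ ^ 2 := by
    intro i
    refine (hGq i).trans_eq ?_
    rw [hτ2, div_div_eq_mul_div, hI]
    push_cast
    ring
  obtain ⟨i, hi⟩ : ∃ i, D i ≤ I i / τ := by
    by_contra hne
    simp only [not_exists, not_le] at hne
    have hlt : ∑ i, cf i * (V' / τ) < ∑ i, cf i * (2 * k * D i) := by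
      have hex : ∃ i ∈ Finset.univ, 0 < cf i := by
        by_contra h0
        simp only [Finset.mem_univ, true_and, not_exists, not_lt] at h0
        have hle : (∑ i, cf i) ≤ 0 := Finset.sum_nonpos fun i _ => h0 i
        rw [hsum, hn'] at hle
        linarith
      obtain ⟨j, hj, hjc⟩ := hex
      refine Finset.sum_lt_sum (fun i _ => mul_le_mul_of_nonneg_left ?_ (hc0 i))
        ⟨j, hj, mul_lt_mul_of_pos_left ?_ hjc⟩
      all_goals first
        | (rw [hVI i, mul_div_assoc]; exact mul_le_mul_of_nonneg_left (hne i).le (by positivity))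
        | (rw [hVI j, mul_div_assoc]; exact mul_lt_mul_of_pos_left (hne j) (by positivity))
    have hle : ∑ i, cf i * (2 * k * ∫ t in (0:ℝ)..1, f i t ^ (d + 1) * qd (d + 1 + 1) (G i) t) ≤
        ∑ i, cf i * (V' / τ ^ 2) := by
      refine Finset.sum_le_sum fun i _ => mul_le_mul_of_nonneg_left ?_ (hc0 i)
      rw [hVI i, mul_div_assoc]
      exact mul_le_mul_of_nonneg_left (hq i) (by positivity)
    rw [← Finset.sum_mul, hsum] at hlt hle
    have hfin : τ / 2 * (n * (V' / τ ^ 2)) + n * V' / (2 * τ) = n * (V' / τ) := by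
      field_simp; ring
    have := mul_le_mul_of_nonneg_left hle (by positivity : (0:ℝ) ≤ τ / 2)
    linarith
  have hI0 : 0 < I i := by
    have := hVI i
    nlinarith
  have hB1 : 0 < ballInt (d + 1) := by
    rw [ballInt_eq (by omega)]; exact div_pos (kap_pos _) (mul_pos two_pos (kap_pos _))
  have hP0 : 0 ≤ P i := intervalIntegral.integral_nonneg zero_le_one fun t ht => by
    rcases ht.2.eq_or_lt with h | h
    · rw [h, hf1 i]; positivity
    · exact pow_nonneg (hfpos i t ⟨by linarith [ht.1], h⟩).le _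
  -- the one-dimensional bound
  have hPm : (1 - η) * (((d:ℝ) + 1) / d * ballInt d ^ (d + 2)) * τ * I i ^ d ≤
      ballInt (d + 1) ^ (d + 1) * P i ^ (d + 1) := by
    have h := hGd i
    simp only [Nat.add_sub_cancel, Nat.cast_add, Nat.cast_one, add_sub_cancel_right] at h
    rw [show d + 1 + 1 = d + 2 by rfl] at h
    have h' := h.trans (mul_le_mul_of_nonneg_left hi (by positivity))
    calc (1 - η) * (((d:ℝ) + 1) / d * ballInt d ^ (d + 2)) * τ * I i ^ d
        ≤ (ballInt (d + 1) * P i / I i) ^ (d + 1) * (I i / τ) * τ * I i ^ d := by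
          gcongr
      _ = ballInt (d + 1) ^ (d + 1) * P i ^ (d + 1) := by
          rw [div_pow, mul_pow, pow_succ (I i) d]
          field_simp
  -- compare with the slices of `K` itself
  obtain ⟨Lv, hLv⟩ := exists_frame (n := d + 1) (hu i)
  obtain ⟨hh0, hKconc, hKanti, -, -⟩ := profile hK.1 hKs (hu i) (Li i) (hLi i)
  rw [hsupp i] at hKanti
  have hsh := Sharp.shadow_core_gen (n := d) hc IH hK.1 hKs (hu i) (Li i) (hLi i)
  rw [Sharp.isMin_projArea hK hKs (hu i), hsupp i, mul_one] at hsh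
  set S := ∫ t in (0:ℝ)..1, (volume.real (slice (Li i '' K) t) ^ (((d + 1 : ℕ):ℝ)⁻¹)) ^ d with hSdef
  set r : ℝ := k ^ (((d + 1 : ℕ):ℝ)⁻¹) with hr
  have hr0 : 0 < r := rpow_pos_of_pos hk0 _
  have hrp : r ^ (d + 1) = k := rpow_inv_natCast_pow hk0.le (by omega)
  have hf0 : ∀ t ∈ Icc (0:ℝ) 1, 0 ≤ f i t := fun t ht => by
    rcases ht.2.eq_or_lt with h | h
    · rw [h, hf1 i]
    · exact (hfpos i t ⟨by linarith [ht.1], h⟩).le
  have hSP : r ^ d * P i ≤ S := by
    rw [hP, hSdef, ← intervalIntegral.integral_const_mul]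
    refine intervalIntegral.integral_mono_on zero_le_one ?_ ?_ fun t ht => ?_
    · exact ((continuousOn_const.mul (((hfc i).mono (Icc_subset_Icc (by norm_num) le_rfl)).pow d))
        ).intervalIntegrable_of_Icc zero_le_one
    · exact AntitoneOn.intervalIntegrable fun x hx y hy hxy => by
        rw [uIcc_of_le zero_le_one] at hx hy
        exact pow_le_pow_left₀ (rpow_nonneg measureReal_nonneg _) (hKanti hx hy hxy) d
    · rw [← mul_pow]
      refine pow_le_pow_left₀ (mul_nonneg hr0.le (hf0 t ht)) ?_ d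
      refine (pow_le_pow_iff_left₀ (mul_nonneg hr0.le (hf0 t ht)) (rpow_nonneg measureReal_nonneg _)
        (n := d + 1) (by omega)).1 ?_
      rw [mul_pow, hrp, rpow_inv_natCast_pow measureReal_nonneg (by omega), hfA i t]
      refine measureReal_mono (fun y hy => ?_)
        (slice_isCompact (n := d + 1) (hK.1.compact.image (Li i).continuous) t).measure_lt_top.ne
      exact image_mono hsub hy
  have hS0 : 0 ≤ r ^ d * P i := by positivity
  have hkey : c * 2 ^ (d + 1) * k ^ d * P i ^ (d + 1) ≤ volume.real (projBody K) / V := by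
    refine le_trans ?_ hsh
    rw [mul_assoc c, mul_assoc c]
    refine mul_le_mul_of_nonneg_left ?_ hc
    calc 2 ^ (d + 1) * k ^ d * P i ^ (d + 1) = (2 * (r ^ d * P i)) ^ (d + 1) := by
          rw [mul_pow 2, mul_pow (r ^ d), ← pow_mul, mul_comm d (d + 1), pow_mul, hrp]; ring
      _ ≤ _ := pow_le_pow_left₀ (by positivity) (by linarith) _
  have hratio : volume.real (projBody K) / V = Sharp.ratio K * V ^ d := by
    rw [Sharp.ratio, pow_succ V d]
    field_simp
  rw [hratio] at hkey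
  refine le_of_mul_le_mul_right ?_ (pow_pos hV0 d)
  refine le_trans ?_ hkey
  calc (1 - η) * (1 - δ) ^ d * Φ * V ^ d
      = (1 - η) * Φ * ((1 - δ) * V) ^ d := by rw [mul_pow]; ring
    _ ≤ (1 - η) * Φ * (2 * k * I i) ^ d := by
        have hΦ0 : 0 ≤ Φ := by
          have : 0 ≤ ballInt d := by
            rw [ballInt_eq (by omega)]; exact (div_pos (kap_pos _) (mul_pos two_pos (kap_pos _))).le
          positivity
        rw [← hVI i]
        refine mul_le_mul_of_nonneg_left (pow_le_pow_left₀ ?_ hvol d)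
          (mul_nonneg (by linarith) hΦ0)
        exact mul_nonneg (by linarith) hV0.le
    _ = c * 2 ^ (d + 1) * k ^ d * (((1 - η) * (((d:ℝ) + 1) / d * ballInt d ^ (d + 2)) * τ * I i ^ d) /
          ballInt (d + 1) ^ (d + 1)) := by
        rw [hΦ, mul_pow, mul_pow, pow_succ (2:ℝ) d]; ring
    _ ≤ c * 2 ^ (d + 1) * k ^ d * P i ^ (d + 1) := by
        refine mul_le_mul_of_nonneg_left ?_ (by positivity)
        rw [div_le_iff₀ (pow_pos hB1 _), mul_comm (P i ^ (d + 1))]
        exact hPm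

/-- The constant carried by the induction, times the conjectured one. -/
noncomputable def cn (n : ℕ) : ℝ :=
  √24 / 3 * (kap 4 / kap 3) * √(1 / ((n:ℝ) * ((n:ℝ) - 1) * ((n:ℝ) - 2))) * ((n:ℝ) - 1) *
    (kap (n - 1) / kap n)

lemma cn_nonneg {n : ℕ} (hn : 4 ≤ n) : 0 ≤ cn n := by
  have h : (4:ℝ) ≤ n := by exact_mod_cast hn
  have h1 := kap_pos 4
  have h2 := kap_pos 3
  have h3 := kap_pos n
  have h4 := kap_pos (n - 1)
  have h5 : (0:ℝ) ≤ (n:ℝ) - 1 := by linarith
  unfold cn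
  positivity

lemma cn_step {d : ℕ} (hd : 3 ≤ d) :
    cn (d + 1) * petty (d + 1) * sc d = cn (d + 2) * petty (d + 2) := by
  have hd' : (3:ℝ) ≤ d := by exact_mod_cast hd
  have p0 := (kap_pos d).ne'
  have p1 := (kap_pos (d + 1)).ne'
  have p2 := (kap_pos (d + 2)).ne'
  have hsq : √(1 / (((d:ℝ) + 1) * d * ((d:ℝ) - 1))) * √(((d:ℝ) - 1) / ((d:ℝ) + 2)) =
      √(1 / (((d:ℝ) + 2) * ((d:ℝ) + 1) * d)) := by
    have a1 : (d:ℝ) - 1 ≠ 0 := by linarith
    have a2 : (d:ℝ) ≠ 0 := by linarith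
    have a3 : (d:ℝ) + 1 ≠ 0 := by linarith
    have a4 : (d:ℝ) + 2 ≠ 0 := by linarith
    rw [← sqrt_mul (div_nonneg zero_le_one (mul_nonneg (by positivity) (by linarith)))]
    congr 1
    field_simp
  obtain ⟨j, rfl⟩ : ∃ j, d = j + 1 := ⟨d - 1, by omega⟩
  simp only [cn, petty, sc, Nat.add_sub_cancel, show j + 1 + 2 - 1 = j + 2 by omega,
    show j + 1 + 2 - 2 = j + 1 by omega, show j + 1 + 1 - 2 = j by omega,
    show j + 1 + 1 = j + 2 by rfl, show j + 1 + 2 = j + 3 by rfl,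
    show j + 2 - 1 = j + 1 by omega, show j + 3 - 1 = j + 2 by omega] at hsq p0 p1 p2 ⊢
  push_cast at hsq hd' ⊢
  have a2 : (j:ℝ) + 1 ≠ 0 := by linarith
  simp only [show (j:ℝ) + 2 - 1 = (j:ℝ) + 1 by ring, show (j:ℝ) + 2 - 2 = (j:ℝ) by ring,
    show (j:ℝ) + 3 - 1 = (j:ℝ) + 2 by ring, show (j:ℝ) + 3 - 2 = (j:ℝ) + 1 by ring,
    show (j:ℝ) + 1 + 1 = (j:ℝ) + 2 by ring, show (j:ℝ) + 1 + 2 = (j:ℝ) + 3 by ring,
    show (j:ℝ) + 1 - 1 = (j:ℝ) by ring] at hsq ⊢
  rw [← hsq]
  field_simp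
  ring

lemma cn_four : cn 4 = 1 := by
  have p3 := (kap_pos 3).ne'
  have p4 := (kap_pos 4).ne'
  simp only [cn, show 4 - 1 = 3 by rfl]
  norm_num
  field_simp

lemma le_cn {n : ℕ} (hn : 4 ≤ n) : √(3 * π) / 4 ≤ cn n := by
  have h4 : kap 4 / kap 3 = 3 * π / 8 := by
    have e4 : kap 4 = π ^ 2 / 2 := by rw [kap, Sharp.vol_ball_four zero_le_one, one_pow, mul_one]
    have e3 : kap 3 = 4 * π / 3 := by rw [kap, Sharp.vol_ball zero_le_one, one_pow, mul_one]
    rw [e3, e4]
    field_simp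
    ring
  obtain ⟨j, rfl⟩ : ∃ j, n = j + 4 := ⟨n - 4, by omega⟩
  refine (pow_le_pow_iff_left₀ (by positivity) (cn_nonneg (by omega)) two_ne_zero).1 ?_
  have hr := rr_bound (j + 3)
  rw [rr] at hr
  push_cast at hr
  have p0 := kap_pos (j + 3)
  have p1 := kap_pos (j + 4)
  have hj : (0:ℝ) ≤ j := Nat.cast_nonneg j
  have hlow : ((j:ℝ) + 9 / 2) / (2 * π) ≤ (kap (j + 3) / kap (j + 4)) ^ 2 := by
    rw [div_le_iff₀ (by positivity)]
    have e : (kap (j + 4) / kap (j + 3)) ^ 2 * (kap (j + 3) / kap (j + 4)) ^ 2 = 1 := by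
      field_simp
    calc (j:ℝ) + 9 / 2 = (kap (j + 3) / kap (j + 4)) ^ 2 *
          ((kap (j + 4) / kap (j + 3)) ^ 2 * ((j:ℝ) + 9 / 2)) := by
            rw [← mul_assoc, mul_comm ((kap (j + 3) / kap (j + 4)) ^ 2), e, one_mul]
      _ ≤ (kap (j + 3) / kap (j + 4)) ^ 2 * (2 * π) := by
          refine mul_le_mul_of_nonneg_left ?_ (sq_nonneg _)
          linarith [show (kap (j + 4) / kap (j + 3)) ^ 2 * ((j:ℝ) + 9 / 2) =
            (kap (j + 3 + 1) / kap (j + 3)) ^ 2 * ((j:ℝ) + 3 + 3 / 2) by ring_nf]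
  simp only [cn, h4, show j + 4 - 1 = j + 3 by omega]
  push_cast
  simp only [mul_pow, div_pow (√24), div_pow (√(3 * π))]
  rw [sq_sqrt (by positivity), sq_sqrt (by norm_num),
    sq_sqrt (div_nonneg zero_le_one (mul_nonneg (mul_nonneg (by linarith) (by linarith)) (by linarith)))]
  refine le_trans ?_ (mul_le_mul_of_nonneg_left hlow ?_)
  · have hπ := pi_pos
    rw [show (j:ℝ) + 4 - 1 = (j:ℝ) + 3 by ring, show (j:ℝ) + 4 - 2 = (j:ℝ) + 2 by ring]
    field_simp
    nlinarith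
  · have : (0:ℝ) ≤ 1 / (((j:ℝ) + 4) * ((j:ℝ) + 4 - 1) * ((j:ℝ) + 4 - 2)) :=
      div_nonneg zero_le_one (mul_nonneg (mul_nonneg (by linarith) (by linarith)) (by linarith))
    positivity

/-- Petty's inequality up to the absolute constant `√(3π)/4`, from the modules. -/
theorem pettyConst_of (h1 : OneDU) (h2 : FluxU) (hJ : JohnU) (hS : SmoothU) : PettyConst := by
  have hall : ∀ j : ℕ, ∀ K : Set (E (j + 4)), IsBody K →
      cn (j + 4) * petty (j + 4) * volume.real K ^ (j + 3) ≤ volume.real (projBody K) := by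
    intro j
    induction j with
    | zero =>
      intro K hK
      have h4 : petty 4 = 1024 / 81 := by
        have e4 : kap 4 = π ^ 2 / 2 := by rw [kap, Sharp.vol_ball_four zero_le_one, one_pow, mul_one]
        have e3 : kap 3 = 4 * π / 3 := by rw [kap, Sharp.vol_ball zero_le_one, one_pow, mul_one]
        simp only [petty, show 4 - 1 = 3 by rfl, show 4 - 2 = 2 by rfl, e3, e4]
        field_simp
        ring
      show cn 4 * petty 4 * volume.real K ^ 3 ≤ _
      rw [cn_four, h4, one_mul]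
      exact (Sharp.pettyFour_of Sharp.OneD4.oneD4 K hK.compact hK.convex hK.nonempty).1
    | succ j ih =>
      intro K hK
      show cn (j + 3 + 2) * petty (j + 3 + 2) * _ ≤ _
      rw [← cn_step (by omega)]
      exact step h1 h2 hJ hS (by omega)
        (mul_nonneg (cn_nonneg (by omega)) (petty_pos _).le) ih hK
  intro n hn K hK
  rcases hn.eq_or_lt with h | h
  · subst h
    show √(3 * π) / 4 * petty 3 * volume.real K ^ 2 ≤ _
    rw [petty_three]
    refine le_trans ?_ (Sharp.pettyThree_of Sharp.OneD3.oneD3 K hK.compact hK.convex hK.nonempty).1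
    refine mul_le_mul_of_nonneg_right ?_ (sq_nonneg _)
    refine mul_le_of_le_one_left (by positivity) ?_
    rw [div_le_one (by norm_num), sqrt_le_iff]
    exact ⟨by norm_num, by linarith [pi_le_four]⟩
  · obtain ⟨j, rfl⟩ : ∃ j, n = j + 4 := ⟨n - 4, by omega⟩
    refine le_trans ?_ (hall j K hK)
    rw [show j + 4 - 1 = j + 3 by omega]
    exact mul_le_mul_of_nonneg_right
      (mul_le_mul_of_nonneg_right (le_cn (by omega)) (petty_pos _).le) (by positivity)

end Vale.Agent.P237.Univ
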