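import Vale.Agent.P237.Univ.Spec
import Vale.Agent.P237.Position
import Vale.Agent.P084.Fin.John

/-!
# P237: John position of a symmetric body, with the decomposition of the identity

Maximise the determinant of the moment operators of the polar body. In the coordinates where the
maximiser is the identity the first variation gives `‖g‖² ≤ d` on the polar body, and the identity
is a convex combination of `g ⊗ g` with equality.
-/

open MeasureTheory Set Real Metric Module
open scoped Pointwise RealInnerProductSpace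

namespace Vale.Agent.P237.Univ

open Vale.Agent.P084.Fin (op moments op_apply moments_symm det_eq rayleigh isCompact_hull)

variable {d : ℕ}

/-- The polar set. -/
def polarSet (K : Set (E d)) : Set (E d) := {g | ∀ x ∈ K, ⟪g, x⟫ ≤ 1}

lemma isCompact_polarSet {K : Set (E d)} {r : ℝ} (hr : 0 < r) (hK : closedBall (0 : E d) r ⊆ K) :
    IsCompact (polarSet K) := by
  refine Metric.isCompact_of_isClosed_isBounded ?_ ?_
  · simp only [polarSet, ofPred_forall]
    exact isClosed_biInter fun x _ => isClosed_le (by fun_prop) continuous_const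
  · refine (isBounded_closedBall (x := (0 : E d)) (r := 1 / r)).subset fun g hg => ?_
    rw [mem_closedBall_zero_iff]
    rcases eq_or_ne g 0 with rfl | hg0
    · simp [hr.le]
    · have hn : 0 < ‖g‖ := norm_pos_iff.2 hg0
      have := hg ((r / ‖g‖) • g) (hK (by
        rw [mem_closedBall_zero_iff, norm_smul, norm_div, norm_norm, Real.norm_of_nonneg hr.le,
          div_mul_cancel₀ _ hn.ne']))
      rw [real_inner_smul_right, real_inner_self_eq_norm_sq, sq, ← mul_assoc,
        div_mul_cancel₀ _ hn.ne'] at this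
      rw [le_div_iff₀ hr]
      linarith

lemma exists_ball_subset {K : Set (E d)} (hK : IsBody K) (hsym : ∀ x ∈ K, -x ∈ K) :
    ∃ r > 0, closedBall (0 : E d) r ⊆ K := by
  obtain ⟨p, hp⟩ := hK.nonempty
  obtain ⟨r, hr, hb⟩ := Metric.nhds_basis_closedBall.mem_iff.1 (mem_interior_iff_mem_nhds.1 hp)
  refine ⟨r, hr, fun x hx => ?_⟩
  rw [mem_closedBall_zero_iff] at hx
  have h1 : p + x ∈ K := hb (by simpa [dist_eq_norm] using hx)
  have h2 : p - x ∈ K := hb (by simpa [dist_eq_norm] using hx)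
  have := hK.convex h1 (hsym _ h2) (a := 1 / 2) (b := 1 / 2) (by norm_num) (by norm_num)
    (by norm_num)
  convert this using 1
  module

/-- A linear image making the moments of the polar body have maximal determinant at the identity. -/
lemma exists_max_position {K : Set (E d)} {r : ℝ} (hr : 0 < r) (hK : closedBall (0 : E d) r ⊆ K)
    (hKb : Bornology.IsBounded K) :
    ∃ T : E d ≃ₗ[ℝ] E d, (1 : E d →L[ℝ] E d) ∈ moments (polarSet (T '' K)) ∧
      ∀ N ∈ moments (polarSet (T '' K)), LinearMap.det (N : E d →ₗ[ℝ] E d) ≤ 1 := by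
  classical
  set Γ := polarSet K
  have hcomp : IsCompact (moments Γ) :=
    isCompact_hull ((isCompact_polarSet hr hK).image (show Continuous (op : E d → _) by
      unfold Vale.Agent.P084.Fin.op; fun_prop))
  obtain ⟨R, hR0, hRb⟩ := hKb.exists_pos_norm_le
  have hsmall : ∀ g : E d, ‖g‖ ≤ 1 / R → g ∈ Γ := fun g hg x hx => by
    refine (real_inner_le_norm g x).trans ?_
    calc ‖g‖ * ‖x‖ ≤ 1 / R * R := mul_le_mul hg (hRb x hx) (norm_nonneg _) (by positivity)
      _ = 1 := by field_simp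
  -- a positive element
  obtain ⟨P, hP, hPdet⟩ : ∃ P ∈ moments Γ, 0 < LinearMap.det (P : E d →ₗ[ℝ] E d) := by
    rcases Nat.eq_zero_or_pos d with hn | hn
    · refine ⟨op 0, subset_convexHull ℝ _ ⟨0, hsmall 0 (by simp [hR0.le]), rfl⟩, ?_⟩
      subst hn
      rw [show ((op (0 : E 0)) : E 0 →ₗ[ℝ] E 0) = LinearMap.id from LinearMap.ext fun v ↦
        Subsingleton.elim _ _, LinearMap.det_id]
      exact one_pos
    · let b := EuclideanSpace.basisFun (Fin d) ℝ
      set ε := 1 / R with hε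
      have hεpos : 0 < ε := by positivity
      refine ⟨∑ i, (1 / (d : ℝ)) • op (ε • b i),
        (convex_convexHull ℝ _).sum_mem (fun i _ ↦ by positivity) (by simp; field_simp)
          (fun i _ ↦ subset_convexHull ℝ _ ⟨_, hsmall _ ?_, rfl⟩), ?_⟩
      · rw [norm_smul, b.norm_eq_one, mul_one, Real.norm_of_nonneg hεpos.le]
      · have : ((∑ i, (1 / (d : ℝ)) • op (ε • b i) : E d →L[ℝ] E d) : E d →ₗ[ℝ] E d)
            = (ε * ε / d) • LinearMap.id := by
          refine LinearMap.ext fun v ↦ ?_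
          simp only [ContinuousLinearMap.coe_coe, ContinuousLinearMap.sum_apply,
            ContinuousLinearMap.smul_apply, op_apply, inner_smul_left, conj_trivial,
            LinearMap.smul_apply, LinearMap.id_coe, id_eq, smul_smul]
          conv_rhs => rw [← b.sum_repr' v, Finset.smul_sum]
          refine Finset.sum_congr rfl fun i _ ↦ ?_
          rw [smul_smul]
          congr 1
          ring
        rw [this, LinearMap.det_smul, LinearMap.det_id]
        positivity
  obtain ⟨M, hM, hmax⟩ := hcomp.exists_isMaxOn ⟨P, hP⟩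
    (ContinuousLinearMap.continuous_det.continuousOn)
  have hMdet : 0 < LinearMap.det (M : E d →ₗ[ℝ] E d) := hPdet.trans_le (hmax hP)
  obtain ⟨hMs, hM0⟩ := moments_symm hM
  set l := hMs.eigenvalues rfl
  set b := hMs.eigenvectorBasis rfl
  have hlnn : ∀ i, 0 ≤ l i := fun i ↦ (hM0 _).trans_eq (rayleigh hMs i)
  let Bl : E d →ₗ[ℝ] E d := ∑ i, Real.sqrt (l i) • (op (b i) : E d →ₗ[ℝ] E d)
  have hBl : ∀ v, Bl v = ∑ i, (Real.sqrt (l i) * ⟪b i, v⟫) • b i := fun v ↦ by
    simp [Bl, smul_smul, LinearMap.sum_apply]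
  have hBBl : Bl ∘ₗ Bl = (M : E d →ₗ[ℝ] E d) := LinearMap.ext fun v ↦ by
    have hbB : ∀ i, ⟪b i, Bl v⟫ = Real.sqrt (l i) * ⟪b i, v⟫ := fun i ↦ by
      simp [hBl, inner_sum, inner_smul_right, orthonormal_iff_ite.mp b.orthonormal]
    conv_rhs => rw [← b.sum_repr' v, map_sum]
    rw [LinearMap.comp_apply, hBl]
    refine Finset.sum_congr rfl fun i _ ↦ ?_
    rw [hbB, map_smul]
    rw [show (M : E d →ₗ[ℝ] E d) (b i) = l i • b i by
      simp [b, l]]
    rw [← mul_assoc, Real.mul_self_sqrt (hlnn i), smul_smul, mul_comm]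
  have hBdet : LinearMap.det Bl ≠ 0 := fun hc ↦ by
    rw [← hBBl, LinearMap.det_comp, hc, mul_zero] at hMdet
    exact lt_irrefl _ hMdet
  let B : E d ≃L[ℝ] E d := (LinearMap.equivOfDetNeZero Bl hBdet).toContinuousLinearEquiv
  have hB : ∀ v, B v = ∑ i, (Real.sqrt (l i) * ⟪b i, v⟫) • b i := hBl
  have hBs : ∀ u v, ⟪B u, v⟫ = ⟪u, B v⟫ := fun u v ↦ by
    simp only [hB, sum_inner, inner_sum, inner_smul_left, inner_smul_right, conj_trivial]
    refine Finset.sum_congr rfl fun i _ ↦ ?_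
    rw [real_inner_comm u]
    ring
  have hBB : ∀ v, B (B v) = M v := fun v ↦ LinearMap.congr_fun hBBl v
  have hBinv : ∀ u v, ⟪B.symm u, v⟫ = ⟪u, B.symm v⟫ := fun u v ↦ by
    conv_lhs => rw [← B.apply_symm_apply v]
    rw [← hBs, B.apply_symm_apply]
  have hmem : ∀ g, g ∈ polarSet (B.toLinearEquiv '' K) ↔ B g ∈ Γ := fun g ↦ by
    simp [polarSet, Γ, hBs]
  refine ⟨B.toLinearEquiv, ?_, fun N hN ↦ ?_⟩
  · let conj : (E d →L[ℝ] E d) →ₗ[ℝ] (E d →L[ℝ] E d) :=
      { toFun := fun T ↦ (B.symm : E d →L[ℝ] E d).comp (T.comp (B.symm : E d →L[ℝ] E d))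
        map_add' := fun S T ↦ by ext; simp
        map_smul' := fun t T ↦ by ext; simp }
    have h1 : conj M = 1 := by
      refine ContinuousLinearMap.ext fun v => ?_
      show B.symm (M (B.symm v)) = v
      rw [← hBB, B.symm_apply_apply, B.apply_symm_apply]
    rw [← h1]
    have h2 : conj M ∈ conj '' moments Γ := mem_image_of_mem _ hM
    rw [moments, LinearMap.image_convexHull] at h2
    refine convexHull_mono ?_ h2
    rintro _ ⟨_, ⟨g, hg, rfl⟩, rfl⟩
    refine ⟨B.symm g, (hmem _).mpr (by rw [B.apply_symm_apply]; exact hg), ?_⟩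
    refine ContinuousLinearMap.ext fun v => ?_
    show op (B.symm g) v = B.symm (op g (B.symm v))
    simp [hBinv]
  · let conj : (E d →L[ℝ] E d) →ₗ[ℝ] (E d →L[ℝ] E d) :=
      { toFun := fun T ↦ (B : E d →L[ℝ] E d).comp (T.comp (B : E d →L[ℝ] E d))
        map_add' := fun S T ↦ by ext; simp
        map_smul' := fun t T ↦ by ext; simp }
    have h2 : conj N ∈ conj '' moments (polarSet (B.toLinearEquiv '' K)) := mem_image_of_mem _ hN
    rw [moments, LinearMap.image_convexHull] at h2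
    have h3 : conj N ∈ moments Γ := by
      refine convexHull_mono ?_ h2
      rintro _ ⟨_, ⟨g, hg, rfl⟩, rfl⟩
      refine ⟨B g, (hmem g).mp hg, ?_⟩
      refine ContinuousLinearMap.ext fun v => ?_
      show op (B g) v = B (op g (B v))
      simp [hBs]
    have h4 := hmax h3
    simp only [mem_ofPred_eq] at h4
    have eN : ((conj N : E d →L[ℝ] E d) : E d →ₗ[ℝ] E d)
        = (B : E d →ₗ[ℝ] E d) ∘ₗ (N : E d →ₗ[ℝ] E d) ∘ₗ (B : E d →ₗ[ℝ] E d) := rfl
    have eM : (M : E d →ₗ[ℝ] E d) = (B : E d →ₗ[ℝ] E d) ∘ₗ (B : E d →ₗ[ℝ] E d) :=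
      LinearMap.ext fun v ↦ (hBB v).symm
    simp only [ContinuousLinearMap.det, eN, eM, LinearMap.det_comp] at h4
    rw [eM, LinearMap.det_comp] at hMdet
    nlinarith

/-- First variation at the maximiser. -/
lemma norm_sq_le {Γ : Set (E d)} (h1 : (1 : E d →L[ℝ] E d) ∈ moments Γ)
    (hmax : ∀ N ∈ moments Γ, LinearMap.det (N : E d →ₗ[ℝ] E d) ≤ 1) {g : E d} (hg : g ∈ Γ) :
    ‖g‖ ^ 2 ≤ d := by
  by_contra hc
  push Not at hc
  have hpos : 0 < ‖g‖ := by nlinarith [norm_nonneg g, (Nat.cast_nonneg d : (0:ℝ) ≤ d)]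
  have hd : 1 ≤ d := by
    rcases Nat.eq_zero_or_pos d with rfl | h
    · exact absurd (Subsingleton.elim g 0) (norm_pos_iff.1 hpos)
    · exact h
  have hd' : (1:ℝ) ≤ d := by exact_mod_cast hd
  set a := ‖g‖ ^ 2 with ha
  set D : ℝ := ((d:ℝ) - 1) * (a - 1) + d + (a - d) with hD
  have hX : 0 ≤ ((d:ℝ) - 1) * (a - 1) := mul_nonneg (by linarith) (by linarith)
  have hD0 : 0 < D := by linarith
  set s := (a - (d:ℝ)) / (2 * D) with hs
  have hsD : s * (2 * D) = a - d := by rw [hs]; field_simp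
  have hs0 : 0 < s := div_pos (by linarith) (by linarith)
  have hs1 : s < 1 := by rw [hs, div_lt_one (by linarith)]; linarith
  have hop : ∀ v, op g v = ⟪g, v⟫ • g := fun v => rfl
  have hN := hmax ((1 - s) • (1 : E d →L[ℝ] E d) + s • op g)
    ((convex_convexHull ℝ _) h1 (subset_convexHull ℝ _ ⟨g, hg, rfl⟩) (by linarith) hs0.le (by ring))
  set u := ‖g‖⁻¹ • g with hu
  have hu1 : ‖u‖ = 1 := by rw [hu, norm_smul, norm_inv, norm_norm, inv_mul_cancel₀ hpos.ne']
  have hdet := det_stretch hu1 (s * a / (1 - s))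
  have heq : (((1 - s) • (1 : E d →L[ℝ] E d) + s • op g : E d →L[ℝ] E d) : E d →ₗ[ℝ] E d)
      = (1 - s) • (LinearMap.id + (s * a / (1 - s)) • (innerₛₗ ℝ u).smulRight u) := by
    refine LinearMap.ext fun v => ?_
    simp only [ContinuousLinearMap.coe_coe, ContinuousLinearMap.add_apply,
      ContinuousLinearMap.smul_apply, ContinuousLinearMap.one_apply, hop, LinearMap.smul_apply,
      LinearMap.add_apply, LinearMap.id_apply, LinearMap.smulRight_apply, innerₛₗ_apply_apply,
      smul_add, smul_smul, hu, real_inner_smul_left]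
    congr 2
    have : (1 : ℝ) - s ≠ 0 := by linarith
    rw [ha]
    field_simp
  rw [heq, LinearMap.det_smul, hdet, finrank_euclideanSpace_fin] at hN
  have hb : 1 - ((d:ℝ) - 1) * s ≤ (1 - s) ^ (d - 1) := by
    have := one_add_mul_le_pow (a := -s) (by linarith) (d - 1)
    rw [Nat.cast_sub hd, Nat.cast_one] at this
    linarith [show (1 + -s) ^ (d - 1) = (1 - s) ^ (d - 1) by ring]
  have hN' : (1 - s) ^ (d - 1) * (1 + s * (a - 1)) ≤ 1 := by
    refine le_trans (le_of_eq ?_) hN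
    conv_rhs => rw [show d = d - 1 + 1 by omega, pow_succ]
    have : (1 : ℝ) - s ≠ 0 := by linarith
    field_simp
    ring
  have h2 : (1 - ((d:ℝ) - 1) * s) * (1 + s * (a - 1)) ≤ 1 :=
    le_trans (mul_le_mul_of_nonneg_right hb (by nlinarith)) hN'
  have h3 : (a - d) - s * (((d:ℝ) - 1) * (a - 1)) ≤ 0 := by
    by_contra hh
    push Not at hh
    nlinarith [mul_pos hs0 hh]
  nlinarith [mul_le_mul_of_nonneg_left (show ((d:ℝ) - 1) * (a - 1) ≤ D by linarith) hs0.le]

theorem johnU : JohnU := by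
  intro d hd K hK hsym
  obtain ⟨r, hr, hball⟩ := exists_ball_subset hK hsym
  obtain ⟨T0, h1, hmax⟩ := exists_max_position hr hball hK.compact.isBounded
  set K1 := T0 '' K with hK1
  set Γ := polarSet K1 with hΓ
  have hnorm : ∀ g ∈ Γ, ‖g‖ ^ 2 ≤ d := fun g hg => norm_sq_le h1 hmax hg
  have hK1c : IsCompact K1 := hK.compact.image T0.toContinuousLinearEquiv.continuous
  have hK1v : Convex ℝ K1 := hK.convex.linear_image T0.toLinearMap
  have h0K : (0 : E d) ∈ K1 := ⟨0, hball (by simp [hr.le]), map_zero _⟩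
  have h1' := h1
  rw [moments] at h1'
  obtain ⟨ι, hι, z, w, hz, -, hw, hw1, hsum⟩ := eq_pos_convex_span_of_mem_convexHull h1'
  have hg : ∀ i, ∃ g ∈ Γ, op g = z i := fun i => hz (mem_range_self i)
  choose g hgΓ hgz using hg
  have hid : ∀ x, ∑ i, w i * ⟪g i, x⟫ ^ 2 = ‖x‖ ^ 2 := fun x => by
    have := congrArg (fun N : E d →L[ℝ] E d => ⟪N x, x⟫) hsum
    simp only [ContinuousLinearMap.sum_apply, ContinuousLinearMap.smul_apply, ← hgz, op_apply,
      ContinuousLinearMap.one_apply, sum_inner, real_inner_smul_left,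
      real_inner_self_eq_norm_sq] at this
    rw [← this]
    exact Finset.sum_congr rfl fun i _ => by ring
  set b := EuclideanSpace.basisFun (Fin d) ℝ with hb
  have htr : ∑ i, w i * ‖g i‖ ^ 2 = d := by
    calc ∑ i, w i * ‖g i‖ ^ 2 = ∑ i, ∑ k, w i * ⟪g i, b k⟫ ^ 2 := by
          refine Finset.sum_congr rfl fun i _ => ?_
          rw [← Finset.mul_sum, ← b.sum_sq_norm_inner_left]
          simp [Real.norm_eq_abs, sq_abs, real_inner_comm]
      _ = ∑ k, ∑ i, w i * ⟪g i, b k⟫ ^ 2 := Finset.sum_comm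
      _ = d := by simp [hid, b.norm_eq_one]
  have heq : ∀ i, ‖g i‖ ^ 2 = d := by
    intro i
    by_contra hne
    have hlt : ∑ j, w j * ‖g j‖ ^ 2 < ∑ j, w j * (d:ℝ) :=
      Finset.sum_lt_sum (fun j _ => mul_le_mul_of_nonneg_left (hnorm _ (hgΓ j)) (hw j).le)
        ⟨i, Finset.mem_univ i, mul_lt_mul_of_pos_left (lt_of_le_of_ne (hnorm _ (hgΓ i)) hne) (hw i)⟩
    rw [htr, ← Finset.sum_mul, hw1, one_mul] at hlt
    exact lt_irrefl _ hlt
  have hd0 : (0:ℝ) < d := by exact_mod_cast hd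
  set sd := √(d:ℝ) with hsd
  have hsd0 : 0 < sd := Real.sqrt_pos.2 hd0
  have hgn : ∀ i, ‖g i‖ = sd := fun i => by
    rw [hsd, ← heq i, Real.sqrt_sq (norm_nonneg _)]
  let T : E d ≃ₗ[ℝ] E d := T0.trans (LinearEquiv.smulOfUnit (Units.mk0 sd hsd0.ne'))
  have hT : T '' K = sd • K1 := by
    rw [hK1, ← image_smul, image_image]
    exact image_congr fun x _ => rfl
  refine ⟨T, ι, hι, fun i => d * w i, fun i => sd⁻¹ • g i, ?_, fun i => by
    have := hw i; positivity, fun i => ?_, fun i => ?_, fun x => ?_⟩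
  · intro y hy
    rw [mem_closedBall_zero_iff] at hy
    rw [hT, mem_smul_set_iff_inv_smul_mem₀ hsd0.ne']
    by_contra hout
    obtain ⟨φ, c, hφK, hφy⟩ := geometric_hahn_banach_closed_point hK1v hK1c.isClosed hout
    obtain ⟨p, hp⟩ : ∃ p : E d, ∀ x, ⟪p, x⟫ = φ x :=
      ⟨(InnerProductSpace.toDual ℝ (E d)).symm φ, fun x => InnerProductSpace.toDual_symm_apply⟩
    have hc : 0 < c := by simpa using hφK 0 h0K
    have hmem : c⁻¹ • p ∈ Γ := fun x hx => by
      rw [real_inner_smul_left, hp, inv_mul_le_iff₀ hc, mul_one]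
      exact (hφK x hx).le
    have hle : ‖c⁻¹ • p‖ ≤ sd := by
      rw [hsd]; exact Real.le_sqrt_of_sq_le (hnorm _ hmem)
    have h2 : 1 < ⟪c⁻¹ • p, sd⁻¹ • y⟫ := by
      rw [real_inner_smul_left, hp, lt_inv_mul_iff₀ hc, mul_one]
      exact hφy
    have h3 : ⟪c⁻¹ • p, sd⁻¹ • y⟫ ≤ 1 := by
      refine (real_inner_le_norm _ _).trans ?_
      rw [norm_smul sd⁻¹, Real.norm_of_nonneg (inv_nonneg.2 hsd0.le)]
      calc ‖c⁻¹ • p‖ * (sd⁻¹ * ‖y‖) ≤ sd * (sd⁻¹ * 1) := by gcongr
        _ = 1 := by field_simp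
    linarith
  · rw [norm_smul, hgn, Real.norm_of_nonneg (inv_nonneg.2 hsd0.le), inv_mul_cancel₀ hsd0.ne']
  · have hval : ∀ z ∈ K1, ⟪sd • z, sd⁻¹ • g i⟫ = ⟪g i, z⟫ := fun z _ => by
      rw [real_inner_smul_left, real_inner_smul_right, ← mul_assoc, mul_inv_cancel₀ hsd0.ne',
        one_mul, real_inner_comm]
    rw [hT, supp]
    set S := (fun x => ⟪x, sd⁻¹ • g i⟫) '' (sd • K1) with hS
    have hne : S.Nonempty := ⟨_, 0, ⟨0, h0K, smul_zero _⟩, rfl⟩
    have hle : ∀ y ∈ S, y ≤ 1 := by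
      rintro _ ⟨_, ⟨z, hz, rfl⟩, rfl⟩
      show ⟪sd • z, sd⁻¹ • g i⟫ ≤ 1
      rw [hval z hz]; exact hgΓ i z hz
    refine le_antisymm (csSup_le hne hle) ?_
    by_contra hlt
    push Not at hlt
    set s := max (sSup S) (1 / 2) with hs
    have hs1 : s < 1 := max_lt hlt (by norm_num)
    have hs0 : 0 < s := lt_max_of_lt_right (by norm_num)
    have hmem : s⁻¹ • g i ∈ Γ := fun z hz => by
      rw [real_inner_smul_left, inv_mul_le_iff₀ hs0, mul_one]
      refine le_trans ?_ (le_max_left _ _)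
      exact le_csSup ⟨1, hle⟩ ⟨sd • z, ⟨z, hz, rfl⟩, hval z hz⟩
    have h2 := hnorm _ hmem
    rw [norm_smul, mul_pow, heq i, Real.norm_of_nonneg (inv_nonneg.2 hs0.le)] at h2
    have : 1 < s⁻¹ ^ 2 := one_lt_pow₀ (one_lt_inv_iff₀.2 ⟨hs0, hs1⟩) two_ne_zero
    nlinarith
  · rw [← hid x]
    refine Finset.sum_congr rfl fun i _ => ?_
    rw [real_inner_smul_left, mul_pow, inv_pow, hsd, Real.sq_sqrt hd0.le]
    field_simp

end Vale.Agent.P237.Univ
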