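import Vale.Agent.P237.Univ.Spec

/-!
# P237: the divergence inequality on a body containing the unit ball
-/

open MeasureTheory Set Real Metric Filter Topology
open scoped Pointwise RealInnerProductSpace NNReal

namespace Vale.Agent.P237.Univ

variable {d : ℕ}

/-- A smooth cutoff: `1` on `s ≤ 1`, `0` on `1 + ε ≤ s`. -/
noncomputable def cut (ε s : ℝ) : ℝ := smoothTransition ((1 + ε - s) / ε)

lemma cut_contDiff (ε : ℝ) : ContDiff ℝ 1 (cut ε) :=
  smoothTransition.contDiff.comp (by fun_prop)

lemma cut_antitone {ε : ℝ} (hε : 0 < ε) : Antitone (cut ε) := fun _ _ h =>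
  smoothTransition.monotone (by gcongr)

lemma cut_of_le_one {ε s : ℝ} (hε : 0 < ε) (hs : s ≤ 1) : cut ε s = 1 :=
  smoothTransition.one_of_one_le (by rw [le_div_iff₀ hε]; linarith)

lemma cut_of_ge {ε s : ℝ} (hε : 0 < ε) (hs : 1 + ε ≤ s) : cut ε s = 0 :=
  smoothTransition.zero_of_nonpos (div_nonpos_of_nonpos_of_nonneg (by linarith) hε.le)

lemma cut_nonneg (ε s : ℝ) : 0 ≤ cut ε s := smoothTransition.nonneg _

lemma cut_le_one (ε s : ℝ) : cut ε s ≤ 1 := smoothTransition.le_one _

lemma deriv_cut_nonpos {ε : ℝ} (hε : 0 < ε) (s : ℝ) : deriv (cut ε) s ≤ 0 :=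
  (cut_antitone hε).deriv_nonpos

lemma deriv_cut_eq_zero_of_lt {ε s : ℝ} (hε : 0 < ε) (hs : s < 1) : deriv (cut ε) s = 0 := by
  have h : cut ε =ᶠ[𝓝 s] fun _ => (1:ℝ) := by
    filter_upwards [Iio_mem_nhds hs] with y hy
    exact cut_of_le_one hε hy.le
  rw [h.deriv_eq, deriv_const]

lemma deriv_cut_eq_zero_of_gt {ε s : ℝ} (hε : 0 < ε) (hs : 1 + ε < s) : deriv (cut ε) s = 0 := by
  have h : cut ε =ᶠ[𝓝 s] fun _ => (0:ℝ) := by
    filter_upwards [Ioi_mem_nhds hs] with y hy
    exact cut_of_ge hε hy.le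
  rw [h.deriv_eq, deriv_const]

lemma exists_lipschitz_cut {ε : ℝ} (hε : 0 < ε) : ∃ C, LipschitzWith C (cut ε) := by
  obtain ⟨C, hC⟩ := (isCompact_Icc (a := (1:ℝ)) (b := 1 + ε)).exists_bound_of_continuousOn
    (cut_contDiff ε).continuous_deriv_one.continuousOn
  refine ⟨C.toNNReal, lipschitzWith_of_nnnorm_deriv_le
    ((cut_contDiff ε).differentiable (by simp)) fun s => ?_⟩
  rw [← NNReal.coe_le_coe, coe_nnnorm, coe_toNNReal']
  rcases lt_or_ge s 1 with h | h
  · simp [deriv_cut_eq_zero_of_lt hε h]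
  rcases lt_or_ge (1 + ε) s with h' | h'
  · simp [deriv_cut_eq_zero_of_gt hε h']
  exact (hC s ⟨h, h'⟩).trans (le_max_left _ _)

/-- A compact convex `K` with the unit ball inside and the ball of radius `M` outside. -/
structure Setting (K : Set (E d)) where
  M : ℝ
  M_pos : 0 < M
  compact : IsCompact K
  convex : Convex ℝ K
  ball : closedBall (0 : E d) 1 ⊆ K
  subset : K ⊆ closedBall (0 : E d) M

variable {K : Set (E d)}

lemma Setting.nhds (S : Setting K) : K ∈ 𝓝 (0 : E d) :=
  Filter.mem_of_superset (closedBall_mem_nhds _ one_pos) S.ball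

lemma Setting.lip (S : Setting K) : LipschitzWith 1 (gauge K) := by
  simpa using S.convex.lipschitzWith_gauge (r := 1) one_pos
    (ball_subset_closedBall.trans (by simpa using S.ball))

lemma Setting.gauge_le_one (S : Setting K) (x : E d) : gauge K x ≤ 1 ↔ x ∈ K := by
  rw [gauge_le_one_iff_mem_closure S.convex S.nhds, S.compact.isClosed.closure_eq]

lemma Setting.norm_le (S : Setting K) (x : E d) : ‖x‖ ≤ S.M * gauge K x := by
  have := le_gauge_of_subset_closedBall (x := x) (absorbent_nhds_zero S.nhds) S.M_pos.le S.subset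
  rwa [div_le_iff₀ S.M_pos, mul_comm] at this

/-- The ball outside which all cutoffs vanish. -/
def Setting.big (S : Setting K) : Set (E d) := closedBall 0 (4 * S.M)

lemma Setting.four_lt_gauge (S : Setting K) {x : E d} (hx : x ∉ S.big) : 4 < gauge K x := by
  by_contra h
  refine hx (mem_closedBall_zero_iff.2 ((S.norm_le x).trans ?_))
  nlinarith [S.M_pos, not_lt.1 h]

lemma Setting.cut_outside (S : Setting K) {ε : ℝ} (hε : 0 < ε) (hε1 : ε ≤ 1) {x : E d}
    (hx : x ∉ S.big) : cut ε (gauge K x) = 0 :=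
  cut_of_ge hε (by linarith [S.four_lt_gauge hx])

lemma Setting.deriv_cut_outside (S : Setting K) {ε : ℝ} (hε : 0 < ε) (hε1 : ε ≤ 1) {x : E d}
    (hx : x ∉ S.big) : deriv (cut ε) (gauge K x) = 0 :=
  deriv_cut_eq_zero_of_gt hε (by linarith [S.four_lt_gauge hx])

lemma Setting.hasCompactSupport (S : Setting K) {f : E d → ℝ} (hf : ∀ x ∉ S.big, f x = 0) :
    HasCompactSupport f :=
  HasCompactSupport.intro (isCompact_closedBall _ _) hf

/-- A function integrable on the large ball, times a continuous function supported there, is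
integrable. -/
lemma Setting.integrable_mul (S : Setting K) {a h : E d → ℝ} (ha : Continuous a)
    (ha0 : ∀ x ∉ S.big, a x = 0) (hh : IntegrableOn h S.big) :
    Integrable fun x => a x * h x := by
  have h1 : IntegrableOn (fun x => a x * h x) S.big :=
    hh.continuousOn_mul ha.continuousOn (isCompact_closedBall _ _)
  exact h1.integrable_of_forall_notMem_eq_zero fun x hx => by simp [ha0 x hx]

/-- The outer cutoffs converge to the indicator of `K`. -/
lemma Setting.tendsto_cut (S : Setting K) {h : E d → ℝ} (hh : IntegrableOn h S.big) :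
    Tendsto (fun n : ℕ => ∫ x, cut (1 / ((n:ℝ) + 1)) (gauge K x) * h x) atTop
      (𝓝 (∫ x in K, h x)) := by
  have hε : ∀ n : ℕ, (0:ℝ) < 1 / ((n:ℝ) + 1) ∧ 1 / ((n:ℝ) + 1) ≤ 1 := fun n =>
    ⟨by positivity, by rw [div_le_one (by positivity)]; simp⟩
  rw [← integral_indicator S.compact.measurableSet]
  refine tendsto_integral_of_dominated_convergence (fun x => S.big.indicator (fun y => |h y|) x)
    (fun n => (S.integrable_mul ((cut_contDiff _).continuous.comp S.lip.continuous)
      (fun x hx => S.cut_outside (hε n).1 (hε n).2 hx) hh).aestronglyMeasurable) ?_ ?_ ?_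
  · exact (integrable_indicator_iff (isClosed_closedBall (x := (0 : E d))).measurableSet).2 hh.abs
  · refine fun n => ae_of_all _ fun x => ?_
    by_cases hx : x ∈ S.big
    · rw [indicator_of_mem hx, Real.norm_eq_abs, abs_mul,
        abs_of_nonneg (cut_nonneg _ _)]
      exact mul_le_of_le_one_left (abs_nonneg _) (cut_le_one _ _)
    · rw [indicator_of_notMem hx, S.cut_outside (hε n).1 (hε n).2 hx, zero_mul, norm_zero]
  · refine ae_of_all _ fun x => ?_
    by_cases hx : x ∈ K
    · rw [indicator_of_mem hx]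
      refine tendsto_const_nhds.congr' (Eventually.of_forall fun n => ?_)
      dsimp only
      rw [cut_of_le_one (hε n).1 ((S.gauge_le_one x).2 hx), one_mul]
    · rw [indicator_of_notMem hx]
      have h1 : 1 < gauge K x := lt_of_not_ge fun h => hx ((S.gauge_le_one x).1 h)
      refine tendsto_const_nhds.congr' ?_
      filter_upwards [tendsto_one_div_add_atTop_nhds_zero_nat.eventually
        (Iio_mem_nhds (sub_pos.2 h1))] with n hn
      rw [cut_of_ge (hε n).1 (by linarith), zero_mul]

lemma measurable_deriv_inner (G : ℝ → ℝ) (u : E d) :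
    Measurable fun x : E d => deriv G ⟪u, x⟫ :=
  (measurable_deriv G).comp (innerSL ℝ u).continuous.measurable

lemma integrableOn_deriv_inner {G : ℝ → ℝ} {L : ℝ≥0} (hG : LipschitzWith L G) (u : E d)
    (s : Set (E d)) (hs : IsCompact s) : IntegrableOn (fun x => deriv G ⟪u, x⟫) s := by
  refine IntegrableOn.of_bound hs.measure_lt_top
    (measurable_deriv_inner G u).aestronglyMeasurable L (ae_of_all _ fun x => ?_)
  exact norm_deriv_le_of_lipschitz hG

lemma integrableOn_qd {G : ℝ → ℝ} {L : ℝ≥0} (hG : LipschitzWith L G) (u : E d)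
    (s : Set (E d)) (hs : IsCompact s) : IntegrableOn (fun x => qd d G ⟪u, x⟫) s := by
  have hc : Continuous fun x : E d => ⟪u, x⟫ := (innerSL ℝ u).continuous
  have hGc : Continuous fun x : E d => G ⟪u, x⟫ := hG.continuous.comp hc
  have h1 : IntegrableOn (fun x : E d => (d:ℝ) * G ⟪u, x⟫ ^ 2) s :=
    ((hGc.pow 2).const_mul (d:ℝ)).continuousOn.integrableOn_compact hs
  have h2 : IntegrableOn (fun x : E d => (⟪u, x⟫ * (2 * G ⟪u, x⟫)) * deriv G ⟪u, x⟫) s :=
    (integrableOn_deriv_inner hG u s hs).continuousOn_mul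
      (hc.mul (hGc.const_mul 2)).continuousOn hs
  exact (h1.add h2).congr_fun (fun x _ => by simp only [qd, Pi.add_apply]; ring) hs.measurableSet

/-- Euler's identity: scaling `φ(gauge K) G²`. -/
lemma Setting.euler (S : Setting K) {ε : ℝ} (hε : 0 < ε) (hε1 : ε ≤ 1) {G : ℝ → ℝ} {L : ℝ≥0}
    (hG : LipschitzWith L G) (u : E d) :
    ∫ x, (-deriv (cut ε) (gauge K x) * gauge K x) * G ⟪u, x⟫ ^ 2 =
      ∫ x, cut ε (gauge K x) * qd d G ⟪u, x⟫ := by
  set φ := cut ε with hφ
  obtain ⟨C, hC⟩ := exists_lipschitz_cut hε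
  have hN : Continuous (gauge K) := S.lip.continuous
  have hφc : Continuous φ := (cut_contDiff ε).continuous
  have hdφc : Continuous (deriv φ) := (cut_contDiff ε).continuous_deriv_one
  have hc : Continuous fun x : E d => ⟪u, x⟫ := (innerSL ℝ u).continuous
  have hGc : Continuous fun x : E d => G ⟪u, x⟫ := hG.continuous.comp hc
  set F : ℝ → E d → ℝ := fun r x => φ (r * gauge K x) * G (r * ⟪u, x⟫) ^ 2 with hF
  set F' : E d → ℝ := fun x => deriv φ (gauge K x) * gauge K x * G ⟪u, x⟫ ^ 2 +
      φ (gauge K x) * (2 * G ⟪u, x⟫ * deriv G ⟪u, x⟫ * ⟪u, x⟫) with hF'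
  set B : E d → ℝ := fun x => (C:ℝ) * |gauge K x| * (|G 0| + L * (2 * |⟪u, x⟫|)) ^ 2 +
      2 * (|G 0| + L * (2 * |⟪u, x⟫|)) * (L * |⟪u, x⟫|) with hB
  have hFc : ∀ r, Continuous (F r) := fun r => by
    have := hG.continuous
    simp only [hF]; fun_prop
  -- almost every argument is a point of differentiability of `G`, or is zero
  have hae : ∀ᵐ x : E d, DifferentiableAt ℝ G ⟪u, x⟫ ∨ ⟪u, x⟫ = 0 := by
    rcases eq_or_ne u 0 with rfl | hu
    · exact ae_of_all _ fun x => Or.inr (by simp)
    have hsurj : Function.Surjective (innerSL ℝ u).toLinearMap :=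
      LinearMap.surjective_of_ne_zero fun h => hu (by
        simpa using LinearMap.congr_fun h u)
    have := (ae_comp_linearMap_mem_iff (innerSL ℝ u).toLinearMap (volume : Measure (E d))
      (volume : Measure ℝ) hsurj (measurableSet_of_differentiableAt ℝ G)).2
      (by simpa using hG.ae_differentiableAt_real)
    filter_upwards [this] with x hx using Or.inl hx
  have h := hasDerivAt_integral_of_dominated_loc_of_lip (μ := (volume : Measure (E d)))
    (F := F) (F' := F') (x₀ := (1:ℝ)) (s := Metric.ball (1:ℝ) (1/2))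
    (bound := S.big.indicator B) (Metric.ball_mem_nhds _ (by norm_num))
    (Eventually.of_forall fun r => (hFc r).aestronglyMeasurable) ?_ ?_ ?_ ?_ ?_
  rotate_left
  · refine (hFc 1).integrable_of_hasCompactSupport (S.hasCompactSupport fun x hx => ?_)
    simp [hF, hφ, S.cut_outside hε hε1 hx]
  · refine Measurable.aestronglyMeasurable ?_
    have := measurable_deriv_inner G u
    exact (((hdφc.comp hN).mul hN).mul (hGc.pow 2)).measurable.add
      ((hφc.comp hN).measurable.mul (((hGc.const_mul 2).measurable.mul this).mul hc.measurable))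
  · refine ae_of_all _ fun x => LipschitzOnWith.of_dist_le_mul fun r hr s hs => ?_
    rw [Metric.mem_ball, Real.dist_eq, abs_lt] at hr hs
    by_cases hx : x ∈ S.big
    · rw [indicator_of_mem hx]
      have hM : ∀ a ∈ ({r, s} : Set ℝ), |G (a * ⟪u, x⟫)| ≤ |G 0| + L * (2 * |⟪u, x⟫|) := by
        intro a ha
        have h1 : |G (a * ⟪u, x⟫) - G 0| ≤ L * |a * ⟪u, x⟫ - 0| := hG.dist_le_mul _ _
        have h2 : |a| ≤ 2 := by
          rcases ha with rfl | rfl <;> rw [abs_le] <;> constructor <;> linarith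
        rw [sub_zero, abs_mul] at h1
        have h3 := mul_le_mul_of_nonneg_left
          (mul_le_mul_of_nonneg_right h2 (abs_nonneg ⟪u, x⟫)) L.2
        have h4 := abs_sub_abs_le_abs_sub (G (a * ⟪u, x⟫)) (G 0)
        change (L:ℝ) * _ ≤ (L:ℝ) * _ at h3
        linarith
      have hd1 : |φ (r * gauge K x) - φ (s * gauge K x)| ≤ C * (|r - s| * |gauge K x|) := by
        have := hC.dist_le_mul (r * gauge K x) (s * gauge K x)
        rwa [Real.dist_eq, Real.dist_eq, ← sub_mul, abs_mul] at this
      have hd2 : |G (r * ⟪u, x⟫) - G (s * ⟪u, x⟫)| ≤ L * (|r - s| * |⟪u, x⟫|) := by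
        have := hG.dist_le_mul (r * ⟪u, x⟫) (s * ⟪u, x⟫)
        rwa [Real.dist_eq, Real.dist_eq, ← sub_mul, abs_mul] at this
      have hr' := hM r (by simp)
      have hs' := hM s (by simp)
      have hB0 : 0 ≤ B x := by rw [hB]; positivity
      rw [Real.dist_eq, Real.dist_eq, Real.coe_nnabs, abs_of_nonneg hB0]
      set A := |G 0| + L * (2 * |⟪u, x⟫|) with hA
      set a := G (r * ⟪u, x⟫)
      set b := G (s * ⟪u, x⟫)
      have e : F r x - F s x = (φ (r * gauge K x) - φ (s * gauge K x)) * a ^ 2 +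
          φ (s * gauge K x) * ((a + b) * (a - b)) := by simp only [hF]; ring
      rw [e]
      have p1 : |φ (s * gauge K x)| ≤ 1 := by
        rw [hφ, abs_of_nonneg (cut_nonneg _ _)]
        exact cut_le_one _ _
      have p2 : |a + b| ≤ 2 * A := (abs_add_le _ _).trans (by linarith)
      have p3 : a ^ 2 ≤ A ^ 2 := by
        rw [← sq_abs a]; exact pow_le_pow_left₀ (abs_nonneg _) hr' 2
      have hA0 : 0 ≤ A := (abs_nonneg _).trans hr'
      calc _ ≤ |(φ (r * gauge K x) - φ (s * gauge K x)) * a ^ 2| +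
            |φ (s * gauge K x) * ((a + b) * (a - b))| := abs_add_le _ _
        _ ≤ C * (|r - s| * |gauge K x|) * A ^ 2 +
            1 * (2 * A * (L * (|r - s| * |⟪u, x⟫|))) := by
          rw [abs_mul, abs_mul, abs_mul, abs_of_nonneg (sq_nonneg a)]
          gcongr
        _ = B x * |r - s| := by simp only [hB, hA]; ring
    · have hg := S.four_lt_gauge hx
      have h0 : ∀ a, 1/2 < a → F a x = 0 := fun a ha => by
        simp only [hF, hφ]
        rw [cut_of_ge hε (by nlinarith), zero_mul]
      rw [h0 r (by linarith), h0 s (by linarith), dist_self]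
      positivity
  · refine (integrable_indicator_iff (isClosed_closedBall (x := (0 : E d))).measurableSet).2 ?_
    refine ContinuousOn.integrableOn_compact (isCompact_closedBall _ _) (Continuous.continuousOn ?_)
    exact ((continuous_const.mul hN.abs).mul ((continuous_const.add (continuous_const.mul
      (continuous_const.mul hc.abs))).pow 2)).add ((continuous_const.mul (continuous_const.add
        (continuous_const.mul (continuous_const.mul hc.abs)))).mul (continuous_const.mul hc.abs))
  · filter_upwards [hae] with x hx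
    have h1 : HasDerivAt (fun r : ℝ => φ (r * gauge K x))
        (deriv φ (gauge K x) * gauge K x) 1 := by
      have := (((cut_contDiff ε).differentiable (by simp)) (1 * gauge K x)).hasDerivAt.comp 1
        ((hasDerivAt_id (1:ℝ)).mul_const (gauge K x))
      simpa [Function.comp_def] using this
    have h2 : HasDerivAt (fun r : ℝ => G (r * ⟪u, x⟫)) (deriv G ⟪u, x⟫ * ⟪u, x⟫) 1 := by
      rcases hx with hx | hx
      · have hx' : HasDerivAt G (deriv G ⟪u, x⟫) (1 * ⟪u, x⟫) := by
          rw [one_mul]; exact hx.hasDerivAt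
        simpa [Function.comp_def] using hx'.comp 1 ((hasDerivAt_id (1:ℝ)).mul_const ⟪u, x⟫)
      · simpa [hx] using hasDerivAt_const (1:ℝ) (G 0)
    have h3 := h1.mul (h2.pow 2)
    refine (h3.congr_deriv ?_).congr_of_eventuallyEq (Eventually.of_forall fun r => rfl)
    simp only [hF', one_mul, Pi.pow_apply]
    ring
  obtain ⟨hint, hder⟩ := h
  have hscale : (fun r => ∫ x, F r x) =ᶠ[𝓝 (1:ℝ)] fun r => (r ^ d)⁻¹ * ∫ x, F 1 x := by
    filter_upwards [Ioi_mem_nhds one_pos] with r hr
    have := Measure.integral_comp_smul_of_nonneg (volume : Measure (E d)) (F 1) r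
      (hR := le_of_lt hr)
    rw [finrank_euclideanSpace_fin] at this
    rw [smul_eq_mul] at this
    rw [← this]
    refine integral_congr_ae (ae_of_all _ fun x => ?_)
    simp only [hF, one_mul, gauge_smul_of_nonneg (le_of_lt (Set.mem_Ioi.1 hr)), inner_smul_right,
      smul_eq_mul]
  have hd : HasDerivAt (fun r : ℝ => (r ^ d)⁻¹ * ∫ x, F 1 x) (-(d:ℝ) * ∫ x, F 1 x) 1 := by
    have := ((hasDerivAt_pow d (1:ℝ)).inv (by simp)).mul_const (∫ x, F 1 x)
    simpa using this
  have hkey := (hder.congr_of_eventuallyEq hscale.symm).unique hd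
  have iP : Integrable fun x => (-deriv φ (gauge K x) * gauge K x) * G ⟪u, x⟫ ^ 2 := by
    refine Continuous.integrable_of_hasCompactSupport ?_ (S.hasCompactSupport fun x hx => ?_)
    · exact ((hdφc.comp hN).neg.mul hN).mul (hGc.pow 2)
    · simp [hφ, S.deriv_cut_outside hε hε1 hx]
  have iQ : Integrable fun x => φ (gauge K x) * qd d G ⟪u, x⟫ :=
    S.integrable_mul (hφc.comp hN) (fun x hx => S.cut_outside hε hε1 hx)
      (integrableOn_qd hG u _ (isCompact_closedBall _ _))
  have i1 : Integrable (F 1) := by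
    refine (hFc 1).integrable_of_hasCompactSupport (S.hasCompactSupport fun x hx => ?_)
    simp [hF, hφ, S.cut_outside hε hε1 hx]
  have key : (∫ x, φ (gauge K x) * qd d G ⟪u, x⟫) -
      ∫ x, (-deriv φ (gauge K x) * gauge K x) * G ⟪u, x⟫ ^ 2 =
      (∫ x, F' x) + (d:ℝ) * ∫ x, F 1 x := by
    rw [← integral_sub iQ iP, ← integral_const_mul, ← integral_add hint (i1.const_mul _)]
    refine integral_congr_ae (ae_of_all _ fun x => ?_)
    simp only [hF', hF, qd, one_mul]
    ring
  rw [hkey] at key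
  linarith

/-- Integration by parts in the direction of a unit vector, and the pointwise form of it. -/
lemma Setting.parts (S : Setting K) {ε : ℝ} (hε : 0 < ε) (hε1 : ε ≤ 1) {G : ℝ → ℝ} {L : ℝ≥0}
    (hG : LipschitzWith L G) {u : E d} (hu : ‖u‖ = 1) :
    Integrable (fun x => -deriv (cut ε) (gauge K x) * fderiv ℝ (gauge K) x u * G ⟪u, x⟫) ∧
    ∫ x, cut ε (gauge K x) * deriv G ⟪u, x⟫ =
      ∫ x, -deriv (cut ε) (gauge K x) * fderiv ℝ (gauge K) x u * G ⟪u, x⟫ := by
  obtain ⟨C, hC⟩ := exists_lipschitz_cut hε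
  have hN : Continuous (gauge K) := S.lip.continuous
  have hdφc : Continuous (deriv (cut ε)) := (cut_contDiff ε).continuous_deriv_one
  have hGc : Continuous fun x : E d => G ⟪u, x⟫ := hG.continuous.comp (innerSL ℝ u).continuous
  constructor
  · refine Integrable.mono' (g := fun x => |deriv (cut ε) (gauge K x) * G ⟪u, x⟫|)
      (Continuous.integrable_of_hasCompactSupport ((hdφc.comp hN).mul hGc).abs
        (S.hasCompactSupport fun x hx => by simp [S.deriv_cut_outside hε hε1 hx])) ?_
      (ae_of_all _ fun x => ?_)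
    · refine Measurable.aestronglyMeasurable ?_
      have := hdφc.measurable
      have := hN.measurable
      have := hGc.measurable
      have := measurable_fderiv_apply_const ℝ (gauge K) u
      exact (((hdφc.comp hN).measurable.neg).mul this).mul hGc.measurable
    · have h1 : |fderiv ℝ (gauge K) x u| ≤ 1 := by
        refine ((fderiv ℝ (gauge K) x).le_opNorm u).trans ?_
        rw [hu, mul_one]
        simpa using norm_fderiv_le_of_lipschitz ℝ S.lip (x₀ := x)
      rw [Real.norm_eq_abs, abs_mul, abs_mul, abs_neg, abs_mul]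
      exact mul_le_mul_of_nonneg_right (mul_le_of_le_one_right (abs_nonneg _) h1) (abs_nonneg _)
  have hf : LipschitzWith (L * ‖innerSL ℝ u‖₊) fun x : E d => G ⟪u, x⟫ :=
    hG.comp (innerSL ℝ u).lipschitz
  have hibp := LipschitzWith.integral_lineDeriv_mul_eq (μ := (volume : Measure (E d))) hf
    (hC.comp S.lip) (S.hasCompactSupport fun x hx => S.cut_outside hε hε1 hx) u
  have hline : ∀ x : E d, lineDeriv ℝ (fun x => G ⟪u, x⟫) x u = deriv G ⟪u, x⟫ := by
    intro x
    have : (fun t : ℝ => G ⟪u, x + t • u⟫) = fun t => G (⟪u, x⟫ + t) := by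
      funext t
      rw [inner_add_right, real_inner_smul_right, real_inner_self_eq_norm_sq, hu]
      norm_num
    rw [lineDeriv, this, deriv_comp_const_add, add_zero]
  have hL : ∫ x, cut ε (gauge K x) * deriv G ⟪u, x⟫ =
      ∫ x, lineDeriv ℝ (fun x => G ⟪u, x⟫) x u * (cut ε ∘ gauge K) x :=
    integral_congr_ae (ae_of_all _ fun x => by simp only [hline, Function.comp_apply]; ring)
  rw [hL, hibp]
  refine integral_congr_ae ?_
  filter_upwards [S.lip.ae_differentiableAt (μ := (volume : Measure (E d)))] with x hx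
  have hd : DifferentiableAt ℝ (cut ε) (gauge K x) :=
    ((cut_contDiff ε).differentiable (by simp)) _
  rw [(hd.comp x hx).lineDeriv_eq_fderiv, fderiv_comp x hd hx]
  simp only [ContinuousLinearMap.comp_apply, map_neg, fderiv_eq_deriv_mul]
  ring

/-- **Module Flux.** -/
theorem fluxU : FluxU := by
  intro d ι _ K hK hconv hball c u hc hu hsum G hG τ hτ
  choose L hL using hG
  obtain ⟨M, hM⟩ := hK.isBounded.subset_closedBall (0 : E d)
  set S : Setting K := ⟨max M 1, lt_of_lt_of_le one_pos (le_max_right _ _), hK, hconv, hball,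
    hM.trans (closedBall_subset_closedBall (le_max_left _ _))⟩
  have hbig : IsCompact S.big := isCompact_closedBall _ _
  -- limit of the smoothed inequality
  have lhs : Tendsto (fun n : ℕ => ∑ i, c i *
      ∫ x, cut (1 / ((n:ℝ) + 1)) (gauge K x) * deriv (G i) ⟪u i, x⟫) atTop
      (𝓝 (∑ i, c i * ∫ x in K, deriv (G i) ⟪u i, x⟫)) :=
    tendsto_finsetSum _ fun i _ =>
      (S.tendsto_cut (integrableOn_deriv_inner (hL i) _ _ hbig)).const_mul _
  have rhs : Tendsto (fun n : ℕ => τ / 2 * (∑ i, c i *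
      ∫ x, cut (1 / ((n:ℝ) + 1)) (gauge K x) * qd d (G i) ⟪u i, x⟫) +
      1 / (2 * τ) * ∫ x, cut (1 / ((n:ℝ) + 1)) (gauge K x) * (d:ℝ)) atTop
      (𝓝 (τ / 2 * (∑ i, c i * ∫ x in K, qd d (G i) ⟪u i, x⟫) +
        1 / (2 * τ) * ∫ _ in K, (d:ℝ))) :=
    ((tendsto_finsetSum _ fun i _ =>
      (S.tendsto_cut (integrableOn_qd (hL i) _ _ hbig)).const_mul _).const_mul _).add
      ((S.tendsto_cut (integrableOn_const hbig.measure_lt_top.ne)).const_mul _)
  refine (le_of_tendsto_of_tendsto' lhs rhs fun n => ?_).trans_eq ?_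
  swap
  · rw [setIntegral_const, smul_eq_mul]; ring
  set ε : ℝ := 1 / ((n:ℝ) + 1)
  have hε : 0 < ε := by positivity
  have hε1 : ε ≤ 1 := by
    rw [div_le_one (by positivity)]; simp
  have hN : Continuous (gauge K) := S.lip.continuous
  have hdφc : Continuous (deriv (cut ε)) := (cut_contDiff ε).continuous_deriv_one
  set w : E d → ℝ := fun x => -deriv (cut ε) (gauge K x) * gauge K x with hw
  set p : ι → E d → ℝ := fun i x =>
    -deriv (cut ε) (gauge K x) * fderiv ℝ (gauge K) x (u i) * G i ⟪u i, x⟫ with hp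
  have iP : ∀ i, Integrable (p i) := fun i => (S.parts hε hε1 (hL i) (hu i)).1
  have iW : ∀ i, Integrable fun x => w x * G i ⟪u i, x⟫ ^ 2 := fun i => by
    have := ((hL i).continuous.comp (innerSL ℝ (u i)).continuous)
    refine Continuous.integrable_of_hasCompactSupport ?_ (S.hasCompactSupport fun x hx => ?_)
    · exact ((hdφc.comp hN).neg.mul hN).mul (this.pow 2)
    · simp [hw, S.deriv_cut_outside hε hε1 hx]
  have iW1 : Integrable w :=
    ((hdφc.comp hN).neg.mul hN).integrable_of_hasCompactSupport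
      (S.hasCompactSupport fun x hx => by simp [S.deriv_cut_outside hε hε1 hx])
  have e1 : ∀ i, ∫ x, cut ε (gauge K x) * deriv (G i) ⟪u i, x⟫ = ∫ x, p i x := fun i =>
    (S.parts hε hε1 (hL i) (hu i)).2
  have e2 : ∀ i, ∫ x, cut ε (gauge K x) * qd d (G i) ⟪u i, x⟫ =
      ∫ x, w x * G i ⟪u i, x⟫ ^ 2 := fun i => (S.euler hε hε1 (hL i) (u i)).symm
  have e3 : ∫ x, cut ε (gauge K x) * (d:ℝ) = ∫ x, w x := by
    simpa [qd, hw] using
      (S.euler hε hε1 (LipschitzWith.const (1:ℝ) : LipschitzWith 0 fun _ : ℝ => (1:ℝ)) 0).symm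
  simp only [e1, e2, e3]
  simp only [← integral_const_mul]
  rw [← integral_finsetSum _ fun i _ => (iP i).const_mul _,
    ← integral_finsetSum _ fun i _ => (iW i).const_mul _,
    ← integral_const_mul, ← integral_add
      ((integrable_finsetSum _ fun i _ => (iW i).const_mul _).const_mul _) (iW1.const_mul _)]
  refine integral_mono (integrable_finsetSum _ fun i _ => (iP i).const_mul _)
    (((integrable_finsetSum _ fun i _ => (iW i).const_mul _).const_mul _).add
      (iW1.const_mul _)) fun x => ?_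
  simp only [hp, hw]
  set D := deriv (cut ε) (gauge K x) with hD
  set N := gauge K x
  set g := fun i => G i ⟪u i, x⟫
  set q := fderiv ℝ (gauge K) x
  have hD0 : D ≤ 0 := deriv_cut_nonpos hε _
  have hDN : 0 ≤ -D * (N - 1) := by
    rcases lt_or_ge N 1 with h | h
    · simp [hD, deriv_cut_eq_zero_of_lt hε h]
    · exact mul_nonneg (by linarith) (by linarith)
  have hq : ∑ i, c i * q (u i) ^ 2 ≤ 1 := by
    set P := (InnerProductSpace.toDual ℝ (E d)).symm q
    have hPu : ∀ y, q y = ⟪P, y⟫ := fun y => InnerProductSpace.toDual_symm_apply.symm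
    have hP1 : ‖P‖ ≤ 1 := by
      rw [LinearIsometryEquiv.norm_map]
      simpa using norm_fderiv_le_of_lipschitz ℝ S.lip (x₀ := x)
    calc _ = ∑ i, c i * ⟪u i, P⟫ ^ 2 := by simp [hPu, real_inner_comm]
      _ = ‖P‖ ^ 2 := hsum P
      _ ≤ 1 := by nlinarith [norm_nonneg P]
  have hcs : ∑ i, c i * (q (u i) * g i) ≤ τ / 2 * ∑ i, c i * g i ^ 2 + 1 / (2 * τ) := by
    have h1 : ∀ i, c i * (q (u i) * g i) ≤
        τ / 2 * (c i * g i ^ 2) + 1 / (2 * τ) * (c i * q (u i) ^ 2) := fun i => by
      have : c i * (q (u i) * g i) * (2 * τ) ≤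
          (τ / 2 * (c i * g i ^ 2) + 1 / (2 * τ) * (c i * q (u i) ^ 2)) * (2 * τ) := by
        field_simp
        nlinarith [mul_nonneg (hc i) (sq_nonneg (τ * g i - q (u i)))]
      exact le_of_mul_le_mul_right this (by positivity)
    refine (Finset.sum_le_sum fun i _ => h1 i).trans ?_
    rw [Finset.sum_add_distrib, ← Finset.mul_sum, ← Finset.mul_sum]
    have := mul_le_mul_of_nonneg_left hq (by positivity : (0:ℝ) ≤ 1 / (2 * τ))
    linarith
  have hS : 0 ≤ τ / 2 * ∑ i, c i * g i ^ 2 + 1 / (2 * τ) := by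
    have : 0 ≤ ∑ i, c i * g i ^ 2 := Finset.sum_nonneg fun i _ => mul_nonneg (hc i) (sq_nonneg _)
    positivity
  calc ∑ i, c i * (-D * q (u i) * g i) = -D * ∑ i, c i * (q (u i) * g i) := by
        rw [Finset.mul_sum]; exact Finset.sum_congr rfl fun i _ => by ring
    _ ≤ -D * (τ / 2 * ∑ i, c i * g i ^ 2 + 1 / (2 * τ)) :=
        mul_le_mul_of_nonneg_left hcs (by linarith)
    _ ≤ -D * N * (τ / 2 * ∑ i, c i * g i ^ 2 + 1 / (2 * τ)) := by
        nlinarith [mul_nonneg hDN hS]
    _ = _ := by
        rw [mul_add, Finset.mul_sum, Finset.mul_sum, Finset.mul_sum]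
        refine congrArg₂ (· + ·) (Finset.sum_congr rfl fun i _ => by ring) (by ring)

end Vale.Agent.P237.Univ
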