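import Vale.Agent.P237.Univ.Spec
import Vale.Agent.P237.Univ.John

/-!
# P237: shrinking a body so that its contact sections become points

With `N` the gauge of `K`, the body `(1 - e) N² + e ‖x‖² ≤ 1` works.
-/

open MeasureTheory Set Real Metric Filter Topology
open scoped Pointwise RealInnerProductSpace

namespace Vale.Agent.P237.Univ

theorem smoothU : SmoothU := by
  intro d K hK hsym hB δ hδ
  have h0 : K ∈ 𝓝 (0 : E (d + 1 + 1)) := mem_of_superset (closedBall_mem_nhds 0 one_pos) hB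
  have habs : Absorbent ℝ K := absorbent_nhds_zero h0
  set N := gauge K with hN
  have hNc : Continuous N := continuous_gauge hK.convex h0
  have hNball : ∀ x, N x ≤ ‖x‖ := fun x => by
    have := gauge_mono (absorbent_nhds_zero (closedBall_mem_nhds (0 : E (d + 1 + 1)) one_pos)) hB x
    rw [gauge_closedBall zero_le_one, div_one] at this
    exact this
  have hNconv : ConvexOn ℝ univ N := by
    refine ⟨convex_univ, fun x _ y _ a b ha hb _ => ?_⟩
    refine (gauge_add_le hK.convex habs _ _).trans (le_of_eq ?_)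
    rw [gauge_smul_of_nonneg ha, gauge_smul_of_nonneg hb]
  obtain ⟨D, hD0, hDb⟩ := hK.compact.isBounded.exists_pos_norm_le
  -- parameters
  set a := min (δ / ((d + 1 + 1 : ℕ) : ℝ)) (1 / 2) with ha
  have ha0 : 0 < a := lt_min (div_pos hδ (by positivity)) (by norm_num)
  have ha2 : a ≤ 1 / 2 := min_le_right _ _
  set r := 1 - a with hr
  have hr0 : 0 < r := by linarith
  set e := min (1 / 2) (a / D ^ 2) with he
  have he0 : 0 < e := lt_min (by norm_num) (by positivity)
  have he1 : e ≤ 1 / 2 := min_le_left _ _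
  have heD : e * D ^ 2 ≤ a := by
    calc e * D ^ 2 ≤ a / D ^ 2 * D ^ 2 :=
          mul_le_mul_of_nonneg_right (min_le_right _ _) (sq_nonneg _)
      _ = a := by field_simp
  set K' := {x : E (d + 1 + 1) | (1 - e) * N x ^ 2 + e * ‖x‖ ^ 2 ≤ 1} with hK'
  have hsub : K' ⊆ K := fun x hx => by
    have hx' : (1 - e) * N x ^ 2 + e * ‖x‖ ^ 2 ≤ 1 := hx
    have : N x ≤ 1 := by
      by_contra hc
      push Not at hc
      nlinarith [hNball x, mul_le_mul_of_nonneg_left
        (pow_le_pow_left₀ (gauge_nonneg x) (hNball x) 2) he0.le]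
    have hmem := (gauge_le_one_iff_mem_closure hK.convex h0).1 this
    rwa [hK.compact.isClosed.closure_eq] at hmem
  have hclosed : IsClosed K' :=
    isClosed_le (by fun_prop) continuous_const
  have hconv : Convex ℝ K' := by
    have hf : ConvexOn ℝ univ (fun x : E (d + 1 + 1) => (1 - e) * N x ^ 2 + e * ‖x‖ ^ 2) := by
      refine ConvexOn.add ?_ ?_
      · exact (hNconv.pow (fun x _ => gauge_nonneg x) 2).smul (by linarith)
      · exact ((convexOn_norm convex_univ).pow (fun x _ => norm_nonneg x) 2).smul he0.le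
    simpa [hK'] using hf.convex_le 1
  have hball : closedBall (0 : E (d + 1 + 1)) 1 ⊆ K' := fun x hx => by
    rw [mem_closedBall_zero_iff] at hx
    show (1 - e) * N x ^ 2 + e * ‖x‖ ^ 2 ≤ 1
    have h1 : N x ^ 2 ≤ ‖x‖ ^ 2 := pow_le_pow_left₀ (gauge_nonneg x) (hNball x) 2
    have h2 : ‖x‖ ^ 2 ≤ 1 := pow_le_one₀ (norm_nonneg x) hx
    nlinarith
  have hcomp : IsCompact K' := hK.compact.of_isClosed_subset hclosed hsub
  have hsymN : ∀ x, N (-x) = N x := fun x => gauge_neg hsym x
  refine ⟨K', ⟨hcomp, hconv, ⟨0, mem_interior_iff_mem_nhds.2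
    (mem_of_superset (closedBall_mem_nhds 0 one_pos) hball)⟩⟩, ?_, hball, hsub, ?_, ?_⟩
  · intro x hx
    show (1 - e) * N (-x) ^ 2 + e * ‖-x‖ ^ 2 ≤ 1
    rw [hsymN, norm_neg]
    exact hx
  · have hscale : r • K ⊆ K' := by
      rintro _ ⟨x, hx, rfl⟩
      show (1 - e) * N (r • x) ^ 2 + e * ‖r • x‖ ^ 2 ≤ 1
      rw [hN, gauge_smul_of_nonneg hr0.le, norm_smul, Real.norm_of_nonneg hr0.le, smul_eq_mul,
        mul_pow, mul_pow]
      have h1 : gauge K x ^ 2 ≤ 1 := pow_le_one₀ (gauge_nonneg x) (gauge_le_one_of_mem hx)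
      have h2 : ‖x‖ ^ 2 ≤ D ^ 2 := pow_le_pow_left₀ (norm_nonneg x) (hDb x hx) 2
      calc (1 - e) * (r ^ 2 * gauge K x ^ 2) + e * (r ^ 2 * ‖x‖ ^ 2)
          = r ^ 2 * ((1 - e) * gauge K x ^ 2 + e * ‖x‖ ^ 2) := by ring
        _ ≤ r ^ 2 * (1 + a) := by
            refine mul_le_mul_of_nonneg_left ?_ (sq_nonneg r)
            nlinarith [mul_le_mul_of_nonneg_left h2 he0.le]
        _ ≤ 1 := by rw [hr]; nlinarith [mul_le_mul_of_nonneg_left ha2 (sq_nonneg a), sq_nonneg a]
    have hmono : volume.real (r • K) ≤ volume.real K' :=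
      measureReal_mono hscale hcomp.measure_lt_top.ne
    rw [Sharp.volume_real_smul K hr0.le] at hmono
    refine le_trans (mul_le_mul_of_nonneg_right ?_ measureReal_nonneg) hmono
    have hbern := one_add_mul_le_pow (a := -a) (by linarith) (d + 1 + 1)
    have hna : ((d + 1 + 1 : ℕ) : ℝ) * a ≤ δ := by
      calc ((d + 1 + 1 : ℕ) : ℝ) * a ≤ ((d + 1 + 1 : ℕ) : ℝ) * (δ / ((d + 1 + 1 : ℕ) : ℝ)) :=
            mul_le_mul_of_nonneg_left (min_le_left _ _) (Nat.cast_nonneg _)
        _ = δ := by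
            have : ((d + 1 + 1 : ℕ) : ℝ) ≠ 0 := by positivity
            field_simp
    rw [hr]
    linarith [show (1 + -a) ^ (d + 1 + 1) = (1 - a) ^ (d + 1 + 1) by ring]
  · intro v hv hsupp
    have hvK' : v ∈ K' := hball (by simp [hv])
    refine ⟨le_antisymm ?_ ?_, fun x hx hxv => ?_⟩
    · rw [← hsupp]
      refine csSup_le ⟨_, v, hvK', rfl⟩ ?_
      rintro _ ⟨y, hy, rfl⟩
      exact le_supp hK.compact v (hsub hy)
    · have := le_supp hcomp v hvK'
      rwa [real_inner_self_eq_norm_sq, hv, one_pow] at this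
    · have hN1 : 1 ≤ N x := by
        by_contra hc
        push Not at hc
        obtain ⟨b, hb0, hb1, hxb⟩ := exists_lt_of_gauge_lt habs hc
        obtain ⟨y, hy, rfl⟩ := hxb
        have := le_supp hK.compact v hy
        rw [hsupp] at this
        rw [real_inner_smul_left] at hxv
        nlinarith
      have hx' : (1 - e) * N x ^ 2 + e * ‖x‖ ^ 2 ≤ 1 := hx
      have hx1 : 1 ≤ ‖x‖ := hN1.trans (hNball x)
      have hxe : ‖x‖ = 1 := by
        have h5 := mul_le_mul_of_nonneg_left (one_le_pow₀ hN1 (n := 2)) (show 0 ≤ 1 - e by linarith)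
        have h6 : e * ‖x‖ ^ 2 ≤ e * 1 := by linarith
        have h7 := le_of_mul_le_mul_left h6 he0
        nlinarith
      exact (inner_eq_one_iff_of_norm_eq_one hxe hv).1 hxv

end Vale.Agent.P237.Univ
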